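import Vale.Agent.P011.E6I.H637.Base2
import Vale.Agent.P011.E6.H64.Glue

/-!
Conjugation of cubic elements of `D ⊗ Q`.
-/

open Matrix

namespace Vale.Agent.P011.E6I

open Vale.Agent.P011.MPQ Vale.Agent.P011.D4 Vale.Agent.P011.D4.Oct Vale.Agent.P011.E6

section conj

variable {k L : Type} [Field k] [NumberField k] [Field L] [NumberField L] [Algebra k L]
  {ρ : L ≃ₐ[k] L} {lam : kˣ} {a b c : kˣ}

theorem Hyp.anisoK (H : Hyp ρ lam a b c) : Aniso a b := H64.aniso_of_division H.hdiv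

theorem inv_dq (H : Hyp ρ lam a b c) {x : MQ L a b} (hx : x ∈ dq ρ lam a b) (h0 : x ≠ 0) :
    ∃ y ∈ dq ρ lam a b, x * y = 1 ∧ y * x = 1 := by
  obtain ⟨u, rfl⟩ := isUnit_of_inD H hx h0
  exact ⟨_, InD.inv H hx, u.mul_inv, u.inv_mul⟩

theorem inv_ew (H : Hyp ρ lam a b c) {w : Qt a b} {x : MQ L a b} (hx : x ∈ ew ρ lam w)
    (h0 : x ≠ 0) : ∃ y ∈ ew ρ lam w, x * y = 1 ∧ y * x = 1 := by
  obtain ⟨y, hy, h1, h2⟩ := inv_dq H hx.1 h0
  refine ⟨y, ⟨hy, ?_⟩, h1, h2⟩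
  have e : y * (x * sc L w) * y = y * (sc L w * x) * y := by rw [hx.2]
  have e1 : y * (x * sc L w) * y = sc L w * y := by
    rw [← mul_assoc, h2, one_mul]
  have e2 : y * (sc L w * x) * y = y * sc L w := by
    rw [mul_assoc, mul_assoc, h1, mul_one]
  rw [e1, e2] at e
  exact e.symm

theorem inv_d0 (H : Hyp ρ lam a b c) {x : MQ L a b} (hx : x ∈ d0 ρ lam a b)
    (h0 : x ≠ 0) : ∃ y ∈ d0 ρ lam a b, x * y = 1 ∧ y * x = 1 := by
  have hw : (⟨0, 1, 0, 0⟩ : Qt a b).re = 0 := rfl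
  have hn : nrd (⟨0, 1, 0, 0⟩ : Qt a b) ≠ 0 := by simp [nrd]
  obtain ⟨y, hy, h1, h2⟩ := inv_ew H (d0_le_ew (⟨0, 1, 0, 0⟩ : Qt a b) hx) h0
  obtain ⟨y₀, hy₀, y₁, hy₁, rfl⟩ := ew_comp' hw hn hy
  have e : (x * y₀ - 1) + x * y₁ * sc L (⟨0, 1, 0, 0⟩ : Qt a b) = 0 := by
    rw [mul_add, ← mul_assoc] at h1
    rw [sub_add_eq_add_sub, h1, sub_self]
  obtain ⟨-, e2⟩ := ew_ind hw hn ((d0 ρ lam a b).sub_mem ((d0 ρ lam a b).mul_mem hx hy₀)
    (d0 ρ lam a b).one_mem) ((d0 ρ lam a b).mul_mem hx hy₁) e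
  have e3 : y₁ = 0 := by
    have : (y₀ + y₁ * sc L (⟨0, 1, 0, 0⟩ : Qt a b)) * (x * y₁) = 0 := by rw [e2, mul_zero]
    rwa [← mul_assoc, h2, one_mul] at this
  rw [e3, zero_mul, add_zero] at h1 h2
  exact ⟨y₀, hy₀, h1, h2⟩

theorem dq_domain (H : Hyp ρ lam a b c) {x y : MQ L a b} (hx : x ∈ dq ρ lam a b)
    (h : x * y = 0) : x = 0 ∨ y = 0 := by
  by_cases h0 : x = 0
  · exact Or.inl h0
  · obtain ⟨z, -, -, h2⟩ := inv_dq H hx h0
    right
    have : z * (x * y) = 0 := by rw [h, mul_zero]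
    rwa [← mul_assoc, h2, one_mul] at this

/-- The diagonal subfield. -/
def dgl (ρ : L ≃ₐ[k] L) (l : L) : Matrix (Fin 3) (Fin 3) L := Matrix.diagonal ![l, ρ l, ρ (ρ l)]

theorem inD0_dgl (H : Hyp ρ lam a b c) (l : L) : InD0 ρ lam (dgl ρ l) := by
  apply Matrix.ext
  intro i j
  simp only [dgl, u0, Matrix.mul_apply, Matrix.map_apply, Fin.sum_univ_three]
  fin_cases i <;> fin_cases j <;> simp [Hyp.rho3 H, mul_comm]

theorem inD0_u0 : InD0 ρ lam (u0 L lam) := by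
  have h : (u0 L lam).map ρ = u0 L lam := by
    apply Matrix.ext
    intro i j
    fin_cases i <;> fin_cases j <;> simp [u0]
  rw [InD0, h]

theorem inD0_scalar {t : L} (h : InD0 ρ lam (t • (1 : Matrix (Fin 3) (Fin 3) L))) : ρ t = t := by
  have e := congrFun (congrFun h 1) 0
  simp [u0, Matrix.mul_apply, Fin.sum_univ_three] at e
  exact e.symm

/-- The centre of `D`. -/
theorem scalar_of_comm (H : Hyp ρ lam a b c) {z : Matrix (Fin 3) (Fin 3) L}
    (h : ∀ l, z * dgl ρ l = dgl ρ l * z) (hu : z * u0 L lam = u0 L lam * z) :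
    ∃ t : L, z = t • (1 : Matrix (Fin 3) (Fin 3) L) := by
  have hρ1 : ∃ l, ρ l ≠ l := by
    by_contra h0
    exact H.hρ (AlgEquiv.ext fun x => not_not.1 (not_exists.1 h0 x))
  obtain ⟨l, hl⟩ := hρ1
  have hl2 : ρ (ρ l) ≠ l := by
    intro h0
    apply hl
    have := Hyp.rho3 H l
    rw [h0] at this
    exact this
  have hl3 : ρ (ρ l) ≠ ρ l := fun h0 => hl (ρ.injective h0)
  have e : ∀ i j, z i j * ![l, ρ l, ρ (ρ l)] j = ![l, ρ l, ρ (ρ l)] i * z i j := by
    intro i j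
    have := congrFun (congrFun (h l) i) j
    simpa only [dgl, Matrix.diagonal_mul, Matrix.mul_diagonal] using this
  have key : ∀ i j, ![l, ρ l, ρ (ρ l)] j ≠ ![l, ρ l, ρ (ρ l)] i → z i j = 0 := by
    intro i j hij
    have e1 := e i j
    have e2 : z i j * (![l, ρ l, ρ (ρ l)] j - ![l, ρ l, ρ (ρ l)] i) = 0 := by
      linear_combination e1
    exact (mul_eq_zero.1 e2).resolve_right (sub_ne_zero.2 hij)
  have z01 : z 0 1 = 0 := key 0 1 hl
  have z02 : z 0 2 = 0 := key 0 2 hl2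
  have z10 : z 1 0 = 0 := key 1 0 hl.symm
  have z12 : z 1 2 = 0 := key 1 2 hl3
  have z20 : z 2 0 = 0 := key 2 0 hl2.symm
  have z21 : z 2 1 = 0 := key 2 1 hl3.symm
  have e1 := congrFun (congrFun hu 1) 0
  have e2 := congrFun (congrFun hu 2) 1
  simp [u0, Matrix.mul_apply, Fin.sum_univ_three] at e1 e2
  refine ⟨z 0 0, ?_⟩
  apply Matrix.ext
  intro i j
  fin_cases i <;> fin_cases j <;> simp [z01, z02, z10, z12, z20, z21, e1, e2]

theorem exists_noncomm_d0 (H : Hyp ρ lam a b c) {z : Matrix (Fin 3) (Fin 3) L}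
    (hz : ∀ t : L, z ≠ t • (1 : Matrix (Fin 3) (Fin 3) L)) :
    ∃ x ∈ d0 ρ lam a b, x * toMQ z ≠ toMQ z * x := by
  by_contra h
  have h' : ∀ x ∈ d0 ρ lam a b, x * toMQ z = toMQ z * x := by
    intro x hx
    by_contra h0
    exact h ⟨x, hx, h0⟩
  obtain ⟨t, ht⟩ := scalar_of_comm H (z := z) (fun l => by
    have e := h' _ (toMQ_mem (a := a) (b := b) (inD0_dgl H l))
    rw [← toMQ_mul, ← toMQ_mul] at e
    exact (toMQ_injective e).symm) (by
    have e := h' _ (toMQ_mem (a := a) (b := b) (inD0_u0 (ρ := ρ) (lam := lam)))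
    rw [← toMQ_mul, ← toMQ_mul] at e
    exact (toMQ_injective e).symm)
  exact hz t ht

/-- An element of `D` which is a scalar matrix is in the ground field. -/
theorem exists_k_of_scalar (H : Hyp ρ lam a b c) {t : L}
    (h : InD0 ρ lam (t • (1 : Matrix (Fin 3) (Fin 3) L))) : ∃ s : k, algebraMap k L s = t :=
  Hyp.fix H (inD0_scalar h)

theorem toMQ_scalar (s : k) : (toMQ (algebraMap k L s • (1 : Matrix (Fin 3) (Fin 3) L)) : MQ L a b)
    = s • 1 := by
  rw [toMQ_smul, toMQ_one, ksmul_eq]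

/-- An element of `d0` which commutes with `d0` is a scalar. -/
theorem d0_central (H : Hyp ρ lam a b c) {x : MQ L a b} (hx : x ∈ d0 ρ lam a b)
    (h : ∀ y ∈ d0 ρ lam a b, y * x = x * y) : ∃ s : k, x = s • 1 := by
  obtain ⟨z, hz, rfl⟩ := hx
  by_cases h0 : ∀ t : L, z ≠ t • (1 : Matrix (Fin 3) (Fin 3) L)
  · obtain ⟨y, hy, hyz⟩ := exists_noncomm_d0 (a := a) (b := b) H h0
    exact absurd (h y hy) hyz
  · simp only [not_forall, not_not] at h0
    obtain ⟨t, rfl⟩ := h0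
    obtain ⟨s, rfl⟩ := exists_k_of_scalar H hz
    exact ⟨s, toMQ_scalar s⟩

/-! ### Roots of a cubic polynomial without roots in the ground field -/

/-- The polynomial has no root in the ground field. -/
def NoRoot (t s n : k) : Prop := ∀ r : k, r * r * r - t * (r * r) + s * r - n ≠ 0

omit [NumberField k] [NumberField L] in
theorem cubicAt_smul {t s n r : k} : cubicAt t s n (r • (1 : MQ L a b)) =
    (r * r * r - t * (r * r) + s * r - n) • (1 : MQ L a b) := by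
  simp only [cubicAt, smul_mul_assoc, mul_smul_comm, mul_one, smul_smul]
  module

omit [NumberField L] in
theorem noRoot_ne {t s n : k} (h : NoRoot t s n) {r : k} (hr : cubicAt t s n (r • (1 : MQ L a b)) = 0) :
    False := by
  rw [cubicAt_smul] at hr
  rcases smul_eq_zero.1 hr with h1 | h1
  · exact h r h1
  · exact one_ne_zero h1

/-- Roots in `D` are not central. -/
theorem hne_d0 (H : Hyp ρ lam a b c) {t s n : k} (h : NoRoot t s n) {d : MQ L a b}
    (hd : d ∈ d0 ρ lam a b) (hp : cubicAt t s n d = 0) : ∃ x ∈ d0 ρ lam a b, x * d ≠ d * x := by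
  by_contra h0
  obtain ⟨r, rfl⟩ := d0_central H hd (fun y hy => by
    by_contra h1
    exact h0 ⟨y, hy, h1⟩)
  exact noRoot_ne h hp

/-- Roots in `D ⊗ k(w)` are not central. -/
theorem hne_ew (H : Hyp ρ lam a b c) {t s n : k} (h : NoRoot t s n) {w : Qt a b} (hw : w.re = 0)
    (hn : nrd w ≠ 0) {d : MQ L a b} (hd : d ∈ ew ρ lam w) (hp : cubicAt t s n d = 0) :
    ∃ x ∈ d0 ρ lam a b, x * d ≠ d * x := by
  by_contra h0
  have h0' : ∀ y ∈ d0 ρ lam a b, y * d = d * y := by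
    intro y hy
    by_contra h1
    exact h0 ⟨y, hy, h1⟩
  obtain ⟨x₀, hx₀, x₁, hx₁, rfl⟩ := ew_comp' hw hn hd
  have key : ∀ y ∈ d0 ρ lam a b, y * x₀ = x₀ * y ∧ y * x₁ = x₁ * y := by
    intro y hy
    have e := h0' y hy
    have e1 : (y * x₀ - x₀ * y) + (y * x₁ - x₁ * y) * sc L w = 0 := by
      rw [mul_add, add_mul, mul_assoc x₁, sc_comm_d0 hy, ← mul_assoc, ← mul_assoc] at e
      rw [sub_mul, sub_add_sub_comm, e, sub_self]
    obtain ⟨e2, e3⟩ := ew_ind hw hn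
      ((d0 ρ lam a b).sub_mem ((d0 ρ lam a b).mul_mem hy hx₀) ((d0 ρ lam a b).mul_mem hx₀ hy))
      ((d0 ρ lam a b).sub_mem ((d0 ρ lam a b).mul_mem hy hx₁) ((d0 ρ lam a b).mul_mem hx₁ hy)) e1
    exact ⟨sub_eq_zero.1 e2, sub_eq_zero.1 e3⟩
  obtain ⟨α, rfl⟩ := d0_central H hx₀ (fun y hy => (key y hy).1)
  obtain ⟨β, rfl⟩ := d0_central H hx₁ (fun y hy => (key y hy).2)
  by_cases hβ : β = 0
  · rw [hβ, zero_smul, zero_mul, add_zero] at hp
    exact noRoot_ne h hp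
  have hW : sc L w * sc L w = (-nrd w) • (1 : MQ L a b) := sc_sq hw
  have e1 : cubicAt t s n (α • (1 : MQ L a b) + β • (1 : MQ L a b) * sc L w) =
      (α * α * α + 3 * α * (β * β * (-nrd w)) - t * (α * α + β * β * (-nrd w)) + s * α - n) •
        (1 : MQ L a b) + ((3 * α * α + β * β * (-nrd w) - 2 * t * α + s) * β) •
          (1 : MQ L a b) * sc L w := by
    simp only [cubicAt, smul_mul_assoc, mul_smul_comm, mul_one, one_mul, mul_add, add_mul,
      mul_assoc, hW]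
    module
  rw [e1] at hp
  obtain ⟨e2, e3⟩ := ew_ind (ρ := ρ) (lam := lam) hw hn
    ((d0 ρ lam a b).smul_mem (d0 ρ lam a b).one_mem _)
    ((d0 ρ lam a b).smul_mem (d0 ρ lam a b).one_mem _) hp
  have f2 := (smul_eq_zero.1 e2).resolve_right one_ne_zero
  have f3 := ((mul_eq_zero.1 ((smul_eq_zero.1 e3).resolve_right one_ne_zero))).resolve_right hβ
  apply h (t - 2 * α)
  linear_combination f2 + (t - 3 * α) * f3

omit [NumberField k] [NumberField L] in
theorem cubicAt_of_pow {x : MQ L a b} {p2 p1 p0 : k}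
    (hp : x ^ 3 = algebraMap k L p2 • x ^ 2 + algebraMap k L p1 • x + algebraMap k L p0 • 1) :
    cubicAt p2 (-p1) p0 x = 0 := by
  have e : x ^ 3 = x * x * x := by rw [pow_succ, pow_two]
  rw [cubicAt, ← e, hp, pow_two, ksmul_eq, ksmul_eq, ksmul_eq, map_neg]
  module

theorem noRoot_of_quad (H : Hyp ρ lam a b c) {x : MQ L a b} (hx : x ∈ dq ρ lam a b)
    {p2 p1 p0 : k}
    (hp : x ^ 3 = algebraMap k L p2 • x ^ 2 + algebraMap k L p1 • x + algebraMap k L p0 • 1)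
    (hx2 : ∀ q1 q0 : k, x ^ 2 ≠ algebraMap k L q1 • x + algebraMap k L q0 • 1) :
    NoRoot p2 (-p1) p0 := by
  intro r hr
  have h1 := cubicAt_of_pow hp
  have h2 : (x - r • 1) * (x * x + (r - p2) • x + (r * r - p2 * r - p1) • 1) = 0 := by
    have h3 : (x - r • 1) * (x * x + (r - p2) • x + (r * r - p2 * r - p1) • 1) =
        cubicAt p2 (-p1) p0 x - (r * r * r - p2 * (r * r) + -p1 * r - p0) • (1 : MQ L a b) := by
      simp only [cubicAt, smul_mul_assoc, mul_smul_comm, mul_one, one_mul, mul_add, add_mul,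
        sub_mul, mul_sub, mul_assoc]
      module
    rw [h3, h1, hr, zero_smul, sub_zero]
  rcases dq_domain H ((dq ρ lam a b).sub_mem hx ((dq ρ lam a b).smul_mem
    (dq ρ lam a b).one_mem _)) h2 with h3 | h3
  · apply hx2 r 0
    rw [sub_eq_zero.1 h3, map_zero, zero_smul, add_zero, ← ksmul_eq, pow_two, smul_mul_assoc,
      one_mul]
  · apply hx2 (p2 - r) (-(r * r - p2 * r - p1))
    rw [← ksmul_eq, ← ksmul_eq, pow_two, ← sub_eq_zero, ← h3]
    module

/-- Conjugation in `D ⊗ k(w)`. -/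
theorem conj_ew (H : Hyp ρ lam a b c) {t s n : k} (h : NoRoot t s n) {w : Qt a b} (hw : w.re = 0)
    (hn : nrd w ≠ 0) {x : MQ L a b} (hx : x ∈ ew ρ lam w) (hp : cubicAt t s n x = 0) :
    ∃ d ∈ d0 ρ lam a b, cubicAt t s n d = 0 ∧ ∃ y ∈ ew ρ lam w, y ≠ 0 ∧ x * y = y * d := by
  obtain ⟨x₀, hx₀, x₁, hx₁, rfl⟩ := ew_comp' hw hn hx
  by_cases h1 : x₁ = 0
  · subst h1
    rw [zero_mul, add_zero] at hp ⊢
    exact ⟨x₀, hx₀, hp, 1, (ew ρ lam w).one_mem, one_ne_zero, by rw [mul_one, one_mul]⟩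
  · obtain ⟨d, hd, hpd, y₀, hy₀, y₁, hy₁, hy, he⟩ := exists_conj_P (d0 ρ lam a b)
      (fun x hx h0 => inv_d0 H hx h0) (fun x hx => sc_comm_d0 hx w) (by
        rw [sc_sq hw]
        exact (d0 ρ lam a b).smul_mem (d0 ρ lam a b).one_mem _)
      (fun x hx y hy => ew_ind hw hn hx hy) hx₀ hx₁ h1 hp (fun d hd hpd => hne_d0 H h hd hpd)
    refine ⟨d, hd, hpd, _, (ew ρ lam w).add_mem (d0_le_ew w hy₀) ((ew ρ lam w).mul_mem
      (d0_le_ew w hy₁) (sc_self_mem w)), ?_, he⟩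
    intro h0
    exact hy (ew_ind hw hn hy₀ hy₁ h0).2

/-- Conjugation in `D ⊗ Q`. -/
theorem conj_dq (H : Hyp ρ lam a b c) {t s n : k} (h : NoRoot t s n) {x : MQ L a b}
    (hx : x ∈ dq ρ lam a b) (hp : cubicAt t s n x = 0) :
    ∃ d ∈ d0 ρ lam a b, cubicAt t s n d = 0 ∧ ∃ y ∈ dq ρ lam a b, y ≠ 0 ∧ x * y = y * d := by
  have hw : (⟨0, 1, 0, 0⟩ : Qt a b).re = 0 := rfl
  have hn : nrd (⟨0, 1, 0, 0⟩ : Qt a b) ≠ 0 := by simp [nrd]
  have hv : (⟨0, 0, 1, 0⟩ : Qt a b).re = 0 := rfl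
  have hnv : nrd (⟨0, 0, 1, 0⟩ : Qt a b) ≠ 0 := by simp [nrd]
  have hvw : (⟨0, 1, 0, 0⟩ : Qt a b) * ⟨0, 0, 1, 0⟩ = -(⟨0, 0, 1, 0⟩ * ⟨0, 1, 0, 0⟩) := by
    ext <;> simp
  obtain ⟨x₀, hx₀, x₁, hx₁, rfl⟩ := dq_comp hv hnv hw hn hvw hx
  by_cases h1 : x₁ = 0
  · subst h1
    rw [zero_mul, add_zero] at hp ⊢
    obtain ⟨d, hd, hpd, y, hy, hy0, he⟩ := conj_ew H h hw hn hx₀ hp
    exact ⟨d, hd, hpd, y, hy.1, hy0, he⟩
  · obtain ⟨d, hd, hpd, y₀, hy₀, y₁, hy₁, hy, he⟩ := exists_conj_ext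
      (ew ρ lam (⟨0, 1, 0, 0⟩ : Qt a b)) (fun x hx h0 => inv_ew H hx h0)
      (bar (⟨0, 0, 1, 0⟩ : Qt a b)) (fun x hx => bar_mem hv hnv hvw hx)
      (fun x _ => sc_bar hv hnv x) (fun x hx => ⟨_, bar_mem hv hnv hvw hx, bar_bar hv hnv x⟩)
      (fun x _ h0 => by
        have e := bar_bar hv hnv x
        rw [h0, bar, mul_zero, zero_mul, smul_zero] at e
        exact e.symm) (by
        rw [sc_sq hv]
        exact (ew ρ lam _).smul_mem (ew ρ lam _).one_mem _)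
      (fun x hx y hy => dq_ind hv hnv hw hn hvw hx hy) hx₀ hx₁ h1 hp (fun d hd hpd => by
        obtain ⟨z, hz, hzd⟩ := hne_ew H h hw hn hd hpd
        exact ⟨z, d0_le_ew _ hz, hzd⟩)
    obtain ⟨d', hd', hpd', z, hz, hz0, he'⟩ := conj_ew H h hw hn hd hpd
    have hY : y₀ + y₁ * sc L (⟨0, 0, 1, 0⟩ : Qt a b) ∈ dq ρ lam a b :=
      (dq ρ lam a b).add_mem hy₀.1 ((dq ρ lam a b).mul_mem hy₁.1 (sc_mem _))
    refine ⟨d', hd', hpd', _, (dq ρ lam a b).mul_mem hY hz.1, ?_, ?_⟩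
    · intro h0
      rcases dq_domain H hY h0 with h2 | h2
      · exact hy (dq_ind hv hnv hw hn hvw hy₀ hy₁ h2).2
      · exact hz0 h2
    · rw [← mul_assoc, he, mul_assoc, he', mul_assoc]

/-- **Skolem-Noether**: a cubic element of `D ⊗ Q` is conjugate to an element of `D`. -/
theorem exists_conj_D (H : Hyp ρ lam a b c) {x : MQ L a b} (hx : InD ρ lam x) {p2 p1 p0 : k}
    (hp : x ^ 3 = algebraMap k L p2 • x ^ 2 + algebraMap k L p1 • x + algebraMap k L p0 • 1)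
    (hx2 : ∀ q1 q0 : k, x ^ 2 ≠ algebraMap k L q1 • x + algebraMap k L q0 • 1) (w : Qt a b)
    (hw : x * sc L w = sc L w * x) :
    ∃ (m : (MQ L a b)ˣ) (z : Matrix (Fin 3) (Fin 3) L), InD ρ lam (m : MQ L a b) ∧
      (m : MQ L a b) * sc L w = sc L w * m ∧ InD0 ρ lam z ∧
      (∀ t : L, z ≠ t • (1 : Matrix (Fin 3) (Fin 3) L)) ∧
      (m : MQ L a b) * x = toMQ z * (m : MQ L a b) := by
  have hnr := noRoot_of_quad H hx hp hx2
  have hpc := cubicAt_of_pow hp
  have key : ∃ d ∈ d0 ρ lam a b, cubicAt p2 (-p1) p0 d = 0 ∧ ∃ y ∈ dq ρ lam a b,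
      y * sc L w = sc L w * y ∧ y ≠ 0 ∧ x * y = y * d := by
    by_cases h0 : w - algebraMap k (Qt a b) w.re = 0
    · obtain ⟨d, hd, hpd, y, hy, hy0, he⟩ := conj_dq H hnr hx hpc
      refine ⟨d, hd, hpd, y, hy, ?_, hy0, he⟩
      have e : sc L w = w.re • (1 : MQ L a b) := by
        have e1 : w = w.re • (1 : Qt a b) := by
          rw [← Algebra.algebraMap_eq_smul_one]
          exact sub_eq_zero.1 h0
        apply Matrix.ext
        intro i j
        rw [ksmul_eq, e1]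
        by_cases h : i = j
        · subst h
          simp only [sc, Matrix.diagonal_apply_eq, qup_smul, qup_one, Matrix.smul_apply,
            Matrix.one_apply_eq, QuaternionAlgebra.re_smul, QuaternionAlgebra.re_one, smul_eq_mul,
            mul_one]
        · simp only [sc, Matrix.diagonal_apply_ne _ h, Matrix.smul_apply, Matrix.one_apply_ne h,
            smul_zero]
      rw [e, smul_mul_assoc, mul_smul_comm, mul_one, one_mul]
    · have hw' : (w - algebraMap k (Qt a b) w.re).re = 0 := by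
        rw [QuaternionAlgebra.re_sub]
        exact sub_self _
      have hn : nrd (w - algebraMap k (Qt a b) w.re) ≠ 0 := fun h => h0 (H.anisoK _ h)
      have e : ∀ y : MQ L a b, y * sc L (w - algebraMap k (Qt a b) w.re) =
          sc L (w - algebraMap k (Qt a b) w.re) * y ↔ y * sc L w = sc L w * y := by
        intro y
        have e1 : sc L (w - algebraMap k (Qt a b) w.re) = sc L w - w.re • (1 : MQ L a b) := by
          rw [sub_eq_add_neg, sc_add, sc_neg, ← sub_eq_add_neg]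
          congr 1
          apply Matrix.ext
          intro i j
          rw [ksmul_eq, Algebra.algebraMap_eq_smul_one]
          by_cases h : i = j
          · subst h
            simp only [sc, Matrix.diagonal_apply_eq, qup_smul, qup_one, Matrix.smul_apply,
              Matrix.one_apply_eq]
          · simp only [sc, Matrix.diagonal_apply_ne _ h, Matrix.smul_apply, Matrix.one_apply_ne h,
              smul_zero]
        rw [e1, mul_sub, sub_mul, mul_smul_comm, smul_mul_assoc, mul_one, one_mul, sub_left_inj]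
      obtain ⟨d, hd, hpd, y, hy, hy0, he⟩ := conj_ew H hnr hw' hn ⟨hx, (e x).2 hw⟩ hpc
      exact ⟨d, hd, hpd, y, hy.1, (e y).1 hy.2, hy0, he⟩
  obtain ⟨d, ⟨z, hz, rfl⟩, hpd, y, hy, hyw, hy0, he⟩ := key
  obtain ⟨u, rfl⟩ := isUnit_of_inD H hy hy0
  refine ⟨u⁻¹, z, InD.inv H hy, ?_, hz, ?_, ?_⟩
  · have := congrArg (fun m => ((u⁻¹ : (MQ L a b)ˣ) : MQ L a b) * m *
      ((u⁻¹ : (MQ L a b)ˣ) : MQ L a b)) hyw
    simp only [← mul_assoc, Units.inv_mul, one_mul, Units.mul_inv_cancel_right] at this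
    exact this.symm
  · rintro t rfl
    obtain ⟨s, rfl⟩ := exists_k_of_scalar H hz
    rw [toMQ_scalar] at hpd
    exact noRoot_ne hnr hpd
  · have := congrArg (fun m => ((u⁻¹ : (MQ L a b)ˣ) : MQ L a b) * m *
      ((u⁻¹ : (MQ L a b)ˣ) : MQ L a b)) he
    simp only [← mul_assoc, Units.inv_mul, one_mul, Units.mul_inv_cancel_right] at this
    exact this

/-- Two elements of `D ⊗ Q` with the same cubic polynomial are conjugate. -/
theorem exists_conj_Q (H : Hyp ρ lam a b c) {x y : MQ L a b} (hx : InD ρ lam x)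
    (hy : InD ρ lam y) {p2 p1 p0 : k}
    (hp : x ^ 3 = algebraMap k L p2 • x ^ 2 + algebraMap k L p1 • x + algebraMap k L p0 • 1)
    (hq : y ^ 3 = algebraMap k L p2 • y ^ 2 + algebraMap k L p1 • y + algebraMap k L p0 • 1)
    (hx2 : ∀ q1 q0 : k, x ^ 2 ≠ algebraMap k L q1 • x + algebraMap k L q0 • 1)
    (_hy2 : ∀ q1 q0 : k, y ^ 2 ≠ algebraMap k L q1 • y + algebraMap k L q0 • 1) :
    ∃ m : (MQ L a b)ˣ, InD ρ lam (m : MQ L a b) ∧ (m : MQ L a b) * x = y * m := by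
  have hnr := noRoot_of_quad H hx hp hx2
  have key : ∀ z : MQ L a b, InD ρ lam z → cubicAt p2 (-p1) p0 z = 0 →
      ∃ e ∈ dq ρ lam a b, e * z ≠ z * e := by
    intro z hz hpz
    obtain ⟨d, hd, hpd, u, hu, hu0, he⟩ := conj_dq H hnr hz hpz
    obtain ⟨e, he', hed⟩ := hne_d0 H hnr hd hpd
    obtain ⟨v, hv, h1, h2⟩ := inv_dq H hu hu0
    refine ⟨u * e * v, (dq ρ lam a b).mul_mem ((dq ρ lam a b).mul_mem hu (d0_le he')) hv, ?_⟩
    intro h3
    apply hed
    have h4 : z = u * d * v := by rw [← he, mul_assoc, h1, mul_one]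
    have h5 : v * (u * e * v * z) * u = v * (z * (u * e * v)) * u := by rw [h3]
    have h6 : v * (u * e * v * z) * u = e * d := by
      rw [h4]
      calc v * (u * e * v * (u * d * v)) * u = (v * u) * e * (v * u) * d * (v * u) := by
            simp only [mul_assoc]
        _ = e * d := by rw [h2, one_mul, mul_one, mul_one]
    have h7 : v * (z * (u * e * v)) * u = d * e := by
      rw [h4]
      calc v * (u * d * v * (u * e * v)) * u = (v * u) * d * (v * u) * e * (v * u) := by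
            simp only [mul_assoc]
        _ = d * e := by rw [h2, one_mul, mul_one, mul_one]
    rw [← h6, ← h7, h5]
  obtain ⟨z, hz, hz0, he⟩ := exists_twine (dq ρ lam a b)
    (fun x hx y _ h => dq_domain H hx h) hy hx (cubicAt_of_pow hq) (cubicAt_of_pow hp) (by
      obtain ⟨e, he, h1⟩ := key y hy (cubicAt_of_pow hq)
      exact ⟨e, he, h1.symm⟩) (key x hx (cubicAt_of_pow hp))
  obtain ⟨u, rfl⟩ := isUnit_of_inD H hz hz0
  exact ⟨u, hz, he.symm⟩

end conj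

end Vale.Agent.P011.E6I
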