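import Vale.Agent.P011.MathlibUsed

/-!
Conjugation of elements of degree three into a division subalgebra: an elementary form of the
theorem of Skolem and Noether.
-/

namespace Vale.Agent.P011.E6I

/-- The value of the cubic polynomial `X³ - t X² + s X - n`. -/
def cubicAt {k R : Type} [CommRing k] [Ring R] [Algebra k R] (t s n : k) (u : R) : R :=
  u * u * u - t • (u * u) + s • u - n • 1

section core

variable {k R : Type} [CommRing k] [Ring R] [Algebra k R] {t s n : k} {u x α β : R}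

/-- The root of the cubic polynomial. -/
theorem sn_root (h1 : α = t • β - β * β - s • 1) (h0 : α * β - t • α = n • 1) :
    cubicAt t s n (t • 1 - β) = 0 := by
  rw [cubicAt, ← h0, h1]
  simp only [mul_sub, sub_mul, smul_mul_assoc, mul_smul_comm, smul_sub, mul_one, one_mul,
    mul_assoc]
  module

/-- The intertwiner. -/
theorem sn_conj (h2 : u * (u * x) = x * α + u * x * β) (h1 : α = t • β - β * β - s • 1)
    {d c : R} (hd : d = t • 1 - β) (hp : cubicAt t s n d = 0) :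
    u * (x * ((c * d - d * c) * d - β * (c * d - d * c)) + u * x * (c * d - d * c)) =
      (x * ((c * d - d * c) * d - β * (c * d - d * c)) + u * x * (c * d - d * c)) * d := by
  have hβ : β = t • 1 - d := by rw [hd]; abel
  have e1 : u * (u * x * (c * d - d * c)) = x * α * (c * d - d * c) +
      u * x * β * (c * d - d * c) := by
    rw [← mul_assoc, h2, add_mul]
  rw [mul_add, e1, h1, hβ, ← sub_eq_zero]
  have e2 : x * (c * (d * d * d - t • (d * d) + s • d - n • 1) -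
      (d * d * d - t • (d * d) + s • d - n • 1) * c) = 0 := by
    rw [cubicAt] at hp
    rw [hp]; simp
  rw [← neg_eq_zero, ← e2]
  simp only [mul_add, add_mul, mul_sub, sub_mul, smul_mul_assoc, mul_smul_comm, smul_sub,
    mul_one, one_mul, mul_assoc]
  module

theorem sn_coeff (hu : u * (u * x) = x * α + u * x * β) (hp : cubicAt t s n u = 0) :
    x * (α * β - t • α - n • 1) + u * x * (α + β * β - t • β + s • 1) = 0 := by
  have e1 : (u * u * u - t • (u * u) + s • u - n • 1) * x = 0 := by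
    rw [← cubicAt, hp, zero_mul]
  have e2 : u * (u * (u * x)) = u * (x * α + u * x * β) := by rw [hu]
  have e3 : u * (u * x * β) = (x * α + u * x * β) * β := by rw [← mul_assoc, hu]
  rw [mul_add, e3] at e2
  rw [← e1]
  have e4 : (u * u * u - t • (u * u) + s • u - n • 1) * x = u * (u * (u * x)) -
      t • (u * (u * x)) + s • (u * x) - n • x := by
    simp only [sub_mul, add_mul, smul_mul_assoc, one_mul, mul_assoc]
  rw [e4, e2, hu]
  simp only [mul_add, add_mul, mul_sub, mul_smul_comm, smul_add, mul_one, mul_assoc]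
  module

/-- **Conjugation into a subring**, from a stable plane. -/
theorem sn_plane (D : Subalgebra k R) (hα : α ∈ D) (hβ : β ∈ D)
    (hu : u * (u * x) = x * α + u * x * β) (hp : cubicAt t s n u = 0)
    (hind : ∀ a ∈ D, ∀ b ∈ D, x * a + u * x * b = 0 → a = 0 ∧ b = 0)
    (hne : ∀ d ∈ D, cubicAt t s n d = 0 → ∃ c ∈ D, c * d ≠ d * c) :
    ∃ d ∈ D, cubicAt t s n d = 0 ∧ ∃ a ∈ D, ∃ b ∈ D, b ≠ 0 ∧
      u * (x * a + u * x * b) = (x * a + u * x * b) * d := by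
  obtain ⟨h0, h1⟩ := hind _ (D.sub_mem (D.sub_mem (D.mul_mem hα hβ) (D.smul_mem hα t))
    (D.smul_mem D.one_mem n)) _ (D.add_mem (D.sub_mem (D.add_mem hα (D.mul_mem hβ hβ))
      (D.smul_mem hβ t)) (D.smul_mem D.one_mem s)) (sn_coeff hu hp)
  have h1' : α = t • β - β * β - s • 1 := by
    rw [← sub_eq_zero, ← h1]
    abel
  have h0' : α * β - t • α = n • 1 := sub_eq_zero.1 h0
  have hd : t • (1 : R) - β ∈ D := D.sub_mem (D.smul_mem D.one_mem t) hβ
  have hr := sn_root h1' h0'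
  obtain ⟨c, hc, hcd⟩ := hne _ hd hr
  have ha' : c * (t • 1 - β) - (t • 1 - β) * c ∈ D := D.sub_mem (D.mul_mem hc hd) (D.mul_mem hd hc)
  exact ⟨_, hd, hr, _, D.sub_mem (D.mul_mem ha' hd) (D.mul_mem hβ ha'), _, ha',
    sub_ne_zero.2 hcd, sn_conj hu h1' rfl hr⟩

end core

section ext

variable {k R : Type} [CommRing k] [Ring R] [Algebra k R] {t s n : k}

/-- **Conjugation in a quadratic extension of a division algebra.** The extension is
`D + D w` with `w x = τ x w`. -/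
theorem exists_conj_ext (D : Subalgebra k R)
    (hD : ∀ x ∈ D, x ≠ 0 → ∃ y ∈ D, x * y = 1 ∧ y * x = 1) {w : R} (τ : R → R)
    (hτ : ∀ x ∈ D, τ x ∈ D) (hw : ∀ x ∈ D, w * x = τ x * w) (hτs : ∀ x ∈ D, ∃ y ∈ D, τ y = x)
    (hτi : ∀ x ∈ D, τ x = 0 → x = 0) (hww : w * w ∈ D)
    (hind : ∀ x ∈ D, ∀ y ∈ D, x + y * w = 0 → x = 0 ∧ y = 0) {u₀ u₁ : R} (h₀ : u₀ ∈ D)
    (h₁ : u₁ ∈ D) (hu₁ : u₁ ≠ 0) (hp : cubicAt t s n (u₀ + u₁ * w) = 0)
    (hne : ∀ d ∈ D, cubicAt t s n d = 0 → ∃ c ∈ D, c * d ≠ d * c) :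
    ∃ d ∈ D, cubicAt t s n d = 0 ∧ ∃ y₀ ∈ D, ∃ y₁ ∈ D, y₁ ≠ 0 ∧
      (u₀ + u₁ * w) * (y₀ + y₁ * w) = (y₀ + y₁ * w) * d := by
  obtain ⟨v, hv, huv, hvu⟩ := hD u₁ h₁ hu₁
  have hτ₀ := hτ _ h₀
  obtain ⟨β, hβ, hβ'⟩ := hτs (v * u₀ * u₁ + τ u₀) (D.add_mem (D.mul_mem (D.mul_mem hv h₀) h₁) hτ₀)
  have hα : u₀ * u₀ + u₁ * τ u₁ * (w * w) - u₀ * β ∈ D :=
    D.sub_mem (D.add_mem (D.mul_mem h₀ h₀) (D.mul_mem (D.mul_mem h₁ (hτ _ h₁)) hww))
      (D.mul_mem h₀ hβ)
  have e0 : ∀ b ∈ D, (u₀ + u₁ * w) * b = u₀ * b + u₁ * τ b * w := by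
    intro b hb
    rw [add_mul, mul_assoc, hw b hb, ← mul_assoc]
  have hu1 : ∀ b ∈ D, u₁ * τ b = 0 → b = 0 := by
    intro b hb h
    apply hτi b hb
    have h4 : v * (u₁ * τ b) = 0 := by rw [h, mul_zero]
    rwa [← mul_assoc, hvu, one_mul] at h4
  have hu : (u₀ + u₁ * w) * ((u₀ + u₁ * w) * 1) =
      1 * (u₀ * u₀ + u₁ * τ u₁ * (w * w) - u₀ * β) + (u₀ + u₁ * w) * 1 * β := by
    rw [mul_one, e0 _ hβ, mul_add, e0 _ h₀]
    have e1 : (u₀ + u₁ * w) * (u₁ * w) = u₀ * u₁ * w + u₁ * τ u₁ * (w * w) := by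
      rw [← mul_assoc, e0 _ h₁, add_mul, mul_assoc _ w w]
    have e2 : u₁ * τ β = u₀ * u₁ + u₁ * τ u₀ := by
      rw [hβ', mul_add, ← mul_assoc, ← mul_assoc, huv, one_mul]
    rw [e1, e2]
    simp only [one_mul, add_mul]
    abel
  obtain ⟨d, hd, hpd, a, ha, b, hb, hb0, he⟩ := sn_plane D hα hβ hu hp (by
    intro a ha b hb h
    rw [mul_one, one_mul, e0 b hb, ← add_assoc] at h
    obtain ⟨h1, h2⟩ := hind _ (D.add_mem ha (D.mul_mem h₀ hb)) _ (D.mul_mem h₁ (hτ b hb)) h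
    have h3 : b = 0 := hu1 b hb h2
    rw [h3, mul_zero, add_zero] at h1
    exact ⟨h1, h3⟩) hne
  rw [mul_one, one_mul, e0 b hb, ← add_assoc] at he
  exact ⟨d, hd, hpd, a + u₀ * b, D.add_mem ha (D.mul_mem h₀ hb), u₁ * τ b,
    D.mul_mem h₁ (hτ b hb), fun h2 => hb0 (hu1 b hb h2), he⟩

/-- The central case. -/
theorem exists_conj_P (D : Subalgebra k R) (hD : ∀ x ∈ D, x ≠ 0 → ∃ y ∈ D, x * y = 1 ∧ y * x = 1)
    {w : R} (hw : ∀ x ∈ D, w * x = x * w) (hww : w * w ∈ D)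
    (hind : ∀ x ∈ D, ∀ y ∈ D, x + y * w = 0 → x = 0 ∧ y = 0) {u₀ u₁ : R} (h₀ : u₀ ∈ D)
    (h₁ : u₁ ∈ D) (hu₁ : u₁ ≠ 0) (hp : cubicAt t s n (u₀ + u₁ * w) = 0)
    (hne : ∀ d ∈ D, cubicAt t s n d = 0 → ∃ c ∈ D, c * d ≠ d * c) :
    ∃ d ∈ D, cubicAt t s n d = 0 ∧ ∃ y₀ ∈ D, ∃ y₁ ∈ D, y₁ ≠ 0 ∧
      (u₀ + u₁ * w) * (y₀ + y₁ * w) = (y₀ + y₁ * w) * d :=
  exists_conj_ext D hD (fun x => x) (fun _ h => h) hw (fun x h => ⟨x, h, rfl⟩) (fun _ _ h => h)
    hww hind h₀ h₁ hu₁ hp hne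

end ext

section two

variable {k R : Type} [CommRing k] [Ring R] [Algebra k R] {t s n : k}

/-- The candidates for the intertwiners. -/
def twine (t s : k) (x y c : R) : R :=
  x * x * c + x * c * y + c * y * y - t • (x * c + c * y) + s • c

theorem twine_spec {x y : R} (hx : cubicAt t s n x = 0) (hy : cubicAt t s n y = 0) (c : R) :
    x * twine t s x y c = twine t s x y c * y := by
  have e : x * twine t s x y c - twine t s x y c * y =
      cubicAt t s n x * c - c * cubicAt t s n y := by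
    simp only [twine, cubicAt, mul_add, add_mul, mul_sub, sub_mul, smul_mul_assoc, mul_smul_comm,
      smul_add, mul_one, one_mul, mul_assoc]
    module
  rw [hx, hy, zero_mul, mul_zero, sub_zero] at e
  exact sub_eq_zero.1 e

theorem twine_mem (D : Subalgebra k R) {x y c : R} (hx : x ∈ D) (hy : y ∈ D) (hc : c ∈ D) :
    twine t s x y c ∈ D :=
  D.add_mem (D.sub_mem (D.add_mem (D.add_mem (D.mul_mem (D.mul_mem hx hx) hc)
    (D.mul_mem (D.mul_mem hx hc) hy)) (D.mul_mem (D.mul_mem hc hy) hy))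
    (D.smul_mem (D.add_mem (D.mul_mem hx hc) (D.mul_mem hc hy)) t)) (D.smul_mem hc s)

theorem twine_id (x y c e : R) :
    twine t s x y (c * e) - twine t s x y c * e - c * twine t s x y e +
      c * twine t s x y 1 * e = (x * c - c * x) * (x * e + e * y - t • e - (x + y - t • 1) * e) := by
  simp only [twine, mul_add, add_mul, mul_sub, sub_mul, smul_mul_assoc, mul_smul_comm,
      smul_add, mul_one, one_mul, mul_assoc]
  module

/-- **Two roots of the same cubic polynomial are conjugate.** -/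
theorem exists_twine (D : Subalgebra k R) (hD : ∀ x ∈ D, ∀ y ∈ D, x * y = 0 → x = 0 ∨ y = 0)
    {x y : R} (hx : x ∈ D) (hy : y ∈ D) (hpx : cubicAt t s n x = 0) (hpy : cubicAt t s n y = 0)
    (hxc : ∃ c ∈ D, x * c ≠ c * x) (hye : ∃ e ∈ D, e * y ≠ y * e) :
    ∃ z ∈ D, z ≠ 0 ∧ x * z = z * y := by
  obtain ⟨c, hc, hxc⟩ := hxc
  obtain ⟨e, he, hye⟩ := hye
  by_contra h
  have h' : ∀ z ∈ D, twine t s x y z = 0 := by
    intro z hz
    by_contra h0
    exact h ⟨_, twine_mem D hx hy hz, h0, twine_spec hpx hpy z⟩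
  have h1 := twine_id (t := t) (s := s) x y c e
  rw [h' _ (D.mul_mem hc he), h' _ hc, h' _ he, h' _ D.one_mem] at h1
  simp only [zero_mul, mul_zero, sub_zero, add_zero] at h1
  have e2 : x * e + e * y - t • e - (x + y - t • 1) * e = e * y - y * e := by
    simp only [add_mul, sub_mul, smul_mul_assoc, one_mul]
    abel
  rw [e2] at h1
  rcases hD _ (D.sub_mem (D.mul_mem hx hc) (D.mul_mem hc hx)) _
    (D.sub_mem (D.mul_mem he hy) (D.mul_mem hy he)) h1.symm with h2 | h2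
  · exact hxc (sub_eq_zero.1 h2)
  · exact hye (sub_eq_zero.1 h2)

end two

end Vale.Agent.P011.E6I
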