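import Vale.Agent.P011.E6I.Basic
import Vale.Agent.P011.E6I.H637.SN
import Vale.Agent.P011.E6.Act
import Vale.Agent.P011.D4.Up

/-!
The division algebras `D`, `D ⊗ k(w)` and `D ⊗ Q`, as algebras of matrices.
-/

open Matrix

namespace Vale.Agent.P011.E6I

open Vale.Agent.P011.MPQ Vale.Agent.P011.D4 Vale.Agent.P011.D4.Oct Vale.Agent.P011.E6

section maps

variable {k L : Type} [Field k] [Field L] [Algebra k L] {ρ : L ≃ₐ[k] L} {lam : kˣ} {a b : kˣ}

/-- The coefficientwise map, as a homomorphism. -/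
def qmapR (ρ : L ≃ₐ[k] L) (a b : kˣ) : Qt (up L a) (up L b) →+* Qt (up L a) (up L b) where
  toFun := qmap ρ
  map_one' := qmap_one ρ
  map_mul' := qmap_mul ρ
  map_zero' := qmap_zero ρ
  map_add' := qmap_add ρ

theorem map_qmap (m : MQ L a b) : m.map (qmap ρ) = (qmapR ρ a b).mapMatrix m := rfl

/-- The extension of scalars, as a homomorphism. -/
def qupR (L : Type) [Field L] [Algebra k L] (a b : kˣ) : Qt a b →+* Qt (up L a) (up L b) where
  toFun := qup L
  map_one' := qup_one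
  map_mul' := qup_mul
  map_zero' := qup_zero
  map_add' := qup_add

theorem toMQ_add (x y : Matrix (Fin 3) (Fin 3) L) : (toMQ (x + y) : MQ L a b) = toMQ x + toMQ y :=
  map_add (algebraMap L (Qt (up L a) (up L b))).mapMatrix x y

theorem toMQ_sub (x y : Matrix (Fin 3) (Fin 3) L) : (toMQ (x - y) : MQ L a b) = toMQ x - toMQ y :=
  map_sub (algebraMap L (Qt (up L a) (up L b))).mapMatrix x y

theorem toMQ_neg (x : Matrix (Fin 3) (Fin 3) L) : (toMQ (-x) : MQ L a b) = -toMQ x :=
  map_neg (algebraMap L (Qt (up L a) (up L b))).mapMatrix x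

theorem toMQ_zero : (toMQ (0 : Matrix (Fin 3) (Fin 3) L) : MQ L a b) = 0 :=
  map_zero (algebraMap L (Qt (up L a) (up L b))).mapMatrix

theorem toMQ_smul (t : L) (x : Matrix (Fin 3) (Fin 3) L) :
    (toMQ (t • x) : MQ L a b) = t • toMQ x := by
  apply Matrix.ext
  intro i j
  simp only [toMQ, Matrix.map_apply, Matrix.smul_apply, smul_eq_mul, map_mul]
  exact (Algebra.smul_def _ _).symm

theorem toMQ_ksmul (t : k) (x : Matrix (Fin 3) (Fin 3) L) :
    (toMQ (t • x) : MQ L a b) = t • toMQ x := by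
  rw [← algebraMap_smul L t x, toMQ_smul, algebraMap_smul]

theorem toMQ_injective : Function.Injective (toMQ : Matrix (Fin 3) (Fin 3) L → MQ L a b) := by
  intro x y h
  apply Matrix.ext
  intro i j
  exact congrArg QuaternionAlgebra.re (congrFun (congrFun h i) j)

theorem toMQ_eq_zero {x : Matrix (Fin 3) (Fin 3) L} (h : (toMQ x : MQ L a b) = 0) : x = 0 :=
  toMQ_injective (h.trans toMQ_zero.symm)

theorem qmap_algebraMap (t : L) : qmap ρ (algebraMap L (Qt (up L a) (up L b)) t) =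
    algebraMap L (Qt (up L a) (up L b)) (ρ t) := by
  ext
  · rfl
  · exact map_zero ρ
  · exact map_zero ρ
  · exact map_zero ρ

theorem toMQ_map (x : Matrix (Fin 3) (Fin 3) L) :
    (toMQ x : MQ L a b).map (qmap ρ) = toMQ (x.map ρ) := by
  apply Matrix.ext
  intro i j
  simp only [toMQ, Matrix.map_apply, qmap_algebraMap]

/-- Scalar matrices. -/
def scR (L : Type) [Field L] [Algebra k L] (a b : kˣ) : Qt a b →+* MQ L a b :=
  (Matrix.scalar (Fin 3)).comp (qupR L a b)

theorem sc_eq (q : Qt a b) : sc L q = scR L a b q := rfl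

theorem sc_mul (p q : Qt a b) : sc L (p * q) = sc L p * sc L q := map_mul (scR L a b) p q

theorem sc_add (p q : Qt a b) : sc L (p + q) = sc L p + sc L q := map_add (scR L a b) p q

theorem sc_neg (p : Qt a b) : sc L (-p) = -sc L p := map_neg (scR L a b) p

theorem sc_one : sc L (1 : Qt a b) = 1 := map_one (scR L a b)

theorem sc_comm (x : Matrix (Fin 3) (Fin 3) L) (q : Qt a b) :
    sc L q * toMQ x = toMQ x * sc L q := by
  apply Matrix.ext
  intro i j
  simp only [sc, Matrix.diagonal_mul, Matrix.mul_diagonal, toMQ, Matrix.map_apply]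
  exact (Algebra.commutes _ _).symm

theorem sc_map (q : Qt a b) : (sc L q).map (qmap ρ) = sc L q := by
  apply Matrix.ext
  intro i j
  by_cases h : i = j
  · subst h
    simp only [sc, Matrix.map_apply, Matrix.diagonal_apply_eq, qmap_qup]
  · simp only [sc, Matrix.map_apply, Matrix.diagonal_apply_ne _ h, qmap_zero]

theorem inD_sc (q : Qt a b) : InD ρ lam (sc L q) := by
  rw [InD, sc_map, sc_comm]

theorem inD_toMQ {x : Matrix (Fin 3) (Fin 3) L} :
    InD ρ lam (toMQ x : MQ L a b) ↔ InD0 ρ lam x := by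
  rw [InD, InD0, toMQ_map, ← toMQ_mul, ← toMQ_mul]
  exact toMQ_injective.eq_iff

theorem ksmul_eq (t : k) (m : MQ L a b) : t • m = algebraMap k L t • m :=
  (algebraMap_smul L t m).symm

theorem map_ksmul (t : k) (m : MQ L a b) : (t • m).map (qmap ρ) = t • m.map (qmap ρ) := by
  apply Matrix.ext
  intro i j
  rw [ksmul_eq, ksmul_eq]
  simp only [Matrix.map_apply, Matrix.smul_apply]
  rw [qmap_smul, ρ.commutes]

/-- The algebra `D ⊗ Q`. -/
def dq (ρ : L ≃ₐ[k] L) (lam : kˣ) (a b : kˣ) : Subalgebra k (MQ L a b) where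
  carrier := {m | InD ρ lam m}
  mul_mem' := by
    intro x y hx hy
    have hx' : x * toMQ (u0 L lam) = toMQ (u0 L lam) * x.map (qmap ρ) := hx
    have hy' : y * toMQ (u0 L lam) = toMQ (u0 L lam) * y.map (qmap ρ) := hy
    change x * y * toMQ (u0 L lam) = toMQ (u0 L lam) * (x * y).map (qmap ρ)
    rw [mul_assoc, hy', ← mul_assoc, hx', map_qmap, map_qmap, map_qmap, map_mul, mul_assoc]
  add_mem' := by
    intro x y hx hy
    have hx' : x * toMQ (u0 L lam) = toMQ (u0 L lam) * x.map (qmap ρ) := hx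
    have hy' : y * toMQ (u0 L lam) = toMQ (u0 L lam) * y.map (qmap ρ) := hy
    change (x + y) * toMQ (u0 L lam) = toMQ (u0 L lam) * (x + y).map (qmap ρ)
    rw [add_mul, hx', hy', map_qmap, map_qmap, map_qmap, map_add, mul_add]
  algebraMap_mem' := by
    intro t
    change algebraMap k (MQ L a b) t * toMQ (u0 L lam) =
      toMQ (u0 L lam) * (algebraMap k (MQ L a b) t).map (qmap ρ)
    rw [Algebra.algebraMap_eq_smul_one, map_ksmul, map_qmap, map_one, smul_mul_assoc,
      mul_smul_comm, one_mul, mul_one]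

theorem mem_dq {m : MQ L a b} : m ∈ dq ρ lam a b ↔ InD ρ lam m := Iff.rfl

theorem sc_mem (q : Qt a b) : sc L q ∈ dq ρ lam a b := inD_sc q

/-- The algebra `D`. -/
def d0 (ρ : L ≃ₐ[k] L) (lam : kˣ) (a b : kˣ) : Subalgebra k (MQ L a b) where
  carrier := {m | ∃ x, InD0 ρ lam x ∧ m = toMQ x}
  mul_mem' := by
    rintro _ _ ⟨x, hx, rfl⟩ ⟨y, hy, rfl⟩
    refine ⟨x * y, ?_, (toMQ_mul x y).symm⟩
    rw [← inD_toMQ (a := a) (b := b), toMQ_mul]
    exact (dq ρ lam a b).mul_mem (inD_toMQ.2 hx) (inD_toMQ.2 hy)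
  add_mem' := by
    rintro _ _ ⟨x, hx, rfl⟩ ⟨y, hy, rfl⟩
    refine ⟨x + y, ?_, (toMQ_add x y).symm⟩
    rw [← inD_toMQ (a := a) (b := b), toMQ_add]
    exact (dq ρ lam a b).add_mem (inD_toMQ.2 hx) (inD_toMQ.2 hy)
  algebraMap_mem' := by
    intro t
    refine ⟨t • 1, ?_, ?_⟩
    · rw [← inD_toMQ (a := a) (b := b), toMQ_ksmul, toMQ_one]
      exact (dq ρ lam a b).smul_mem (dq ρ lam a b).one_mem t
    · rw [toMQ_ksmul, toMQ_one, Algebra.algebraMap_eq_smul_one]

theorem toMQ_mem {x : Matrix (Fin 3) (Fin 3) L} (h : InD0 ρ lam x) : toMQ x ∈ d0 ρ lam a b :=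
  ⟨x, h, rfl⟩

theorem d0_le : d0 ρ lam a b ≤ dq ρ lam a b := by
  rintro _ ⟨x, hx, rfl⟩
  exact inD_toMQ.2 hx

theorem sc_comm_d0 {x : MQ L a b} (hx : x ∈ d0 ρ lam a b) (q : Qt a b) :
    sc L q * x = x * sc L q := by
  obtain ⟨z, -, rfl⟩ := hx
  exact sc_comm z q

/-- The algebra `D ⊗ k(w)`. -/
def ew (ρ : L ≃ₐ[k] L) (lam : kˣ) {a b : kˣ} (w : Qt a b) : Subalgebra k (MQ L a b) where
  carrier := {m | InD ρ lam m ∧ m * sc L w = sc L w * m}
  mul_mem' := by
    rintro x y ⟨hx, hx'⟩ ⟨hy, hy'⟩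
    exact ⟨(dq ρ lam a b).mul_mem hx hy, by rw [mul_assoc, hy', ← mul_assoc, hx', mul_assoc]⟩
  add_mem' := by
    rintro x y ⟨hx, hx'⟩ ⟨hy, hy'⟩
    exact ⟨(dq ρ lam a b).add_mem hx hy, by rw [add_mul, mul_add, hx', hy']⟩
  algebraMap_mem' := fun t => ⟨(dq ρ lam a b).algebraMap_mem t, Algebra.commutes _ _⟩

theorem mem_ew {w : Qt a b} {m : MQ L a b} :
    m ∈ ew ρ lam w ↔ InD ρ lam m ∧ m * sc L w = sc L w * m := Iff.rfl

theorem d0_le_ew (w : Qt a b) : d0 ρ lam a b ≤ ew ρ lam w := fun _ hx =>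
  ⟨d0_le hx, (sc_comm_d0 hx w).symm⟩

theorem ew_le (w : Qt a b) : ew ρ lam w ≤ dq ρ lam a b := fun _ hx => hx.1

theorem sc_self_mem (w : Qt a b) : sc L w ∈ ew ρ lam w := ⟨inD_sc w, rfl⟩

end maps

section comp

variable {k L : Type} [Field k] [Field L] [Algebra k L] [CharZero k] {ρ : L ≃ₐ[k] L} {lam : kˣ}
  {a b : kˣ}

omit [CharZero k] in
/-- The square of a pure quaternion. -/
theorem sq_pure {w : Qt a b} (hw : w.re = 0) : w * w = (-nrd w) • (1 : Qt a b) := by
  ext <;> simp [nrd, hw] <;> ring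

omit [CharZero k] in
theorem sc_sq {w : Qt a b} (hw : w.re = 0) : sc L w * sc L w = (-nrd w) • (1 : MQ L a b) := by
  rw [← sc_mul, sq_pure hw]
  apply Matrix.ext
  intro i j
  rw [ksmul_eq]
  by_cases h : i = j
  · subst h
    simp only [sc, Matrix.diagonal_apply_eq, qup_smul, qup_one, Matrix.smul_apply,
      Matrix.one_apply_eq]
  · simp only [sc, Matrix.diagonal_apply_ne _ h, Matrix.smul_apply, Matrix.one_apply_ne h,
      smul_zero]

/-- The centraliser of a pure quaternion. -/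
theorem exists_cent {w : Qt a b} (hw : w.re = 0) (hn : nrd w ≠ 0) {x : Qt (up L a) (up L b)}
    (hx : x * qup L w = qup L w * x) :
    ∃ β : L, x = algebraMap L _ x.re + β • qup L w := by
  have hc0 : CharZero L := charZero_of_injective_algebraMap (algebraMap k L).injective
  have ha : (up L a : L) ≠ 0 := (up L a).ne_zero
  have hb : (up L b : L) ≠ 0 := (up L b).ne_zero
  have e1 := congrArg QuaternionAlgebra.imI hx
  have e2 := congrArg QuaternionAlgebra.imJ hx
  have e3 := congrArg QuaternionAlgebra.imK hx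
  have hn' : nrd (qup L w) ≠ 0 := by
    rw [nrd_qup]
    exact (map_ne_zero _).2 hn
  have r0 : (qup L w).re = 0 := by
    change algebraMap k L w.re = 0
    rw [hw, map_zero]
  simp only [QuaternionAlgebra.imI_mul, QuaternionAlgebra.imJ_mul, QuaternionAlgebra.imK_mul,
    r0] at e1 e2 e3
  have f1 : x.imK * (qup L w).imJ = x.imJ * (qup L w).imK := by
    apply mul_left_cancel₀ hb
    linear_combination e1 / 2
  have f2 : x.imI * (qup L w).imK = x.imK * (qup L w).imI := by
    apply mul_left_cancel₀ ha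
    linear_combination e2 / 2
  have f3 : x.imI * (qup L w).imJ = x.imJ * (qup L w).imI := by
    linear_combination e3 / 2
  rw [nrd, r0] at hn'
  refine ⟨((up L a : L) * x.imI * (qup L w).imI + (up L b : L) * x.imJ * (qup L w).imJ -
    (up L a : L) * up L b * x.imK * (qup L w).imK) / ((up L a : L) * (qup L w).imI ^ 2 +
      (up L b : L) * (qup L w).imJ ^ 2 - (up L a : L) * up L b * (qup L w).imK ^ 2), ?_⟩
  have hn2 : (up L a : L) * (qup L w).imI ^ 2 +
      (up L b : L) * (qup L w).imJ ^ 2 - (up L a : L) * up L b * (qup L w).imK ^ 2 ≠ 0 := by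
    intro h
    apply hn'
    linear_combination -h
  set A : L := (up L a : L) with hA
  set B : L := (up L b : L) with hB
  set w1 := (qup L w).imI with hw1
  set w2 := (qup L w).imJ with hw2
  set w3 := (qup L w).imK with hw3
  have g1 : x.imI = (A * x.imI * w1 + B * x.imJ * w2 - A * B * x.imK * w3) /
      (A * w1 ^ 2 + B * w2 ^ 2 - A * B * w3 ^ 2) * w1 := by
    rw [div_mul_eq_mul_div, eq_div_iff hn2]
    linear_combination (B * w2) * f3 - (A * B * w3) * f2
  have g2 : x.imJ = (A * x.imI * w1 + B * x.imJ * w2 - A * B * x.imK * w3) /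
      (A * w1 ^ 2 + B * w2 ^ 2 - A * B * w3 ^ 2) * w2 := by
    rw [div_mul_eq_mul_div, eq_div_iff hn2]
    linear_combination (-A * w1) * f3 + (A * B * w3) * f1
  have g3 : x.imK = (A * x.imI * w1 + B * x.imJ * w2 - A * B * x.imK * w3) /
      (A * w1 ^ 2 + B * w2 ^ 2 - A * B * w3 ^ 2) * w3 := by
    rw [div_mul_eq_mul_div, eq_div_iff hn2]
    linear_combination (-A * w1) * f2 + (B * w2) * f1
  ext
  · rw [QuaternionAlgebra.re_add, QuaternionAlgebra.re_smul, r0, smul_zero, add_zero]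
    rfl
  · rw [QuaternionAlgebra.imI_add, QuaternionAlgebra.imI_smul, smul_eq_mul]
    exact g1.trans (zero_add _).symm
  · rw [QuaternionAlgebra.imJ_add, QuaternionAlgebra.imJ_smul, smul_eq_mul]
    exact g2.trans (zero_add _).symm
  · rw [QuaternionAlgebra.imK_add, QuaternionAlgebra.imK_smul, smul_eq_mul]
    exact g3.trans (zero_add _).symm

end comp

end Vale.Agent.P011.E6I
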