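import Vale.Agent.P011.E6I.H637.Base

/-!
Components of the elements of `D ⊗ k(w)` and of `D ⊗ Q`.
-/

open Matrix

namespace Vale.Agent.P011.E6I

open Vale.Agent.P011.MPQ Vale.Agent.P011.D4 Vale.Agent.P011.D4.Oct Vale.Agent.P011.E6

section comp

variable {k L : Type} [Field k] [Field L] [Algebra k L] [CharZero k] {ρ : L ≃ₐ[k] L} {lam : kˣ}
  {a b : kˣ}

theorem exists_comp {w : Qt a b} (hw : w.re = 0) (hn : nrd w ≠ 0) {m : MQ L a b}
    (hm : m * sc L w = sc L w * m) :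
    ∃ x₀ x₁ : Matrix (Fin 3) (Fin 3) L, m = toMQ x₀ + toMQ x₁ * sc L w := by
  have h : ∀ i j, ∃ β : L, m i j = algebraMap L _ (m i j).re + β • qup L w := by
    intro i j
    apply exists_cent hw hn
    have e := congrFun (congrFun hm i) j
    simpa only [sc, Matrix.diagonal_mul, Matrix.mul_diagonal] using e
  choose β hβ using h
  refine ⟨Matrix.of fun i j => (m i j).re, Matrix.of β, ?_⟩
  apply Matrix.ext
  intro i j
  simp only [sc, Matrix.add_apply, Matrix.mul_diagonal, toMQ, Matrix.map_apply, Matrix.of_apply]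
  rw [← Algebra.smul_def]
  exact hβ i j

omit [CharZero k] in
theorem comp_unique {w : Qt a b} (hw : w.re = 0) (hn : nrd w ≠ 0)
    {x₀ x₁ : Matrix (Fin 3) (Fin 3) L} (h : toMQ x₀ + toMQ x₁ * sc L w = (0 : MQ L a b)) :
    x₀ = 0 ∧ x₁ = 0 := by
  have e : ∀ i j, algebraMap L (Qt (up L a) (up L b)) (x₀ i j) + x₁ i j • qup L w = 0 := by
    intro i j
    have e := congrFun (congrFun h i) j
    simp only [sc, Matrix.add_apply, Matrix.mul_diagonal, toMQ, Matrix.map_apply] at e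
    rwa [← Algebra.smul_def] at e
  have r0 : (qup L w).re = 0 := by
    change algebraMap k L w.re = 0
    rw [hw, map_zero]
  have h0 : x₀ = 0 := by
    apply Matrix.ext
    intro i j
    have e1 := congrArg QuaternionAlgebra.re (e i j)
    rw [QuaternionAlgebra.re_add, QuaternionAlgebra.re_smul, r0, smul_zero, add_zero] at e1
    exact e1
  refine ⟨h0, ?_⟩
  apply Matrix.ext
  intro i j
  have e1 := e i j
  rw [h0, Matrix.zero_apply, map_zero, zero_add] at e1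
  refine (smul_eq_zero.1 e1).resolve_right ?_
  intro h2
  apply hn
  have h3 : algebraMap k L (nrd w) = 0 := by
    rw [← nrd_qup, h2]
    simp [nrd]
  exact (map_eq_zero _).1 h3

theorem ew_comp {w : Qt a b} (hw : w.re = 0) (hn : nrd w ≠ 0) {m : MQ L a b}
    (hm : m ∈ ew ρ lam w) : ∃ x₀ x₁ : Matrix (Fin 3) (Fin 3) L, InD0 ρ lam x₀ ∧ InD0 ρ lam x₁ ∧
      m = toMQ x₀ + toMQ x₁ * sc L w := by
  obtain ⟨hm1, hm2⟩ := hm
  obtain ⟨x₀, x₁, rfl⟩ := exists_comp hw hn hm2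
  have e : (toMQ x₀ + toMQ x₁ * sc L w) * toMQ (u0 L lam) =
      toMQ (u0 L lam) * (toMQ x₀ + toMQ x₁ * sc L w).map (qmap ρ) := hm1
  have e1 : (toMQ x₀ + toMQ x₁ * sc L w : MQ L a b).map (qmap ρ) =
      toMQ (x₀.map ρ) + toMQ (x₁.map ρ) * sc L w := by
    rw [← toMQ_map, ← toMQ_map]
    conv_rhs => rw [← sc_map (ρ := ρ) w]
    rw [map_qmap, map_qmap, map_qmap, map_qmap, map_add, map_mul]
  rw [e1] at e
  obtain ⟨h1, h2⟩ := comp_unique (x₀ := x₀ * u0 L lam - u0 L lam * x₀.map ρ)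
    (x₁ := x₁ * u0 L lam - u0 L lam * x₁.map ρ) hw hn (by
      rw [toMQ_sub, toMQ_sub, toMQ_mul, toMQ_mul, toMQ_mul, toMQ_mul]
      rw [add_mul, mul_add, mul_assoc (toMQ x₁), sc_comm, ← mul_assoc (toMQ x₁), ← mul_assoc] at e
      rw [sub_mul, sub_add_sub_comm, e, sub_self])
  exact ⟨x₀, x₁, sub_eq_zero.1 h1, sub_eq_zero.1 h2, rfl⟩

theorem ew_comp' {w : Qt a b} (hw : w.re = 0) (hn : nrd w ≠ 0) {m : MQ L a b}
    (hm : m ∈ ew ρ lam w) : ∃ x₀ ∈ d0 ρ lam a b, ∃ x₁ ∈ d0 ρ lam a b,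
      m = x₀ + x₁ * sc L w := by
  obtain ⟨x₀, x₁, h₀, h₁, h⟩ := ew_comp hw hn hm
  exact ⟨_, toMQ_mem h₀, _, toMQ_mem h₁, h⟩

omit [CharZero k] in
theorem ew_ind {w : Qt a b} (hw : w.re = 0) (hn : nrd w ≠ 0) {x y : MQ L a b}
    (hx : x ∈ d0 ρ lam a b) (hy : y ∈ d0 ρ lam a b) (h : x + y * sc L w = 0) : x = 0 ∧ y = 0 := by
  obtain ⟨x, -, rfl⟩ := hx
  obtain ⟨y, -, rfl⟩ := hy
  obtain ⟨rfl, rfl⟩ := comp_unique hw hn h
  exact ⟨toMQ_zero, toMQ_zero⟩

/-! The involution of `D ⊗ k(w)`. -/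

omit [CharZero k] in
/-- There is a pure quaternion which anticommutes with a given one. -/
theorem exists_anti {w : Qt a b} (hab : Aniso a b) (hw : w.re = 0) :
    ∃ v : Qt a b, v.re = 0 ∧ nrd v ≠ 0 ∧ w * v = -(v * w) := by
  by_cases h : w.imI = 0 ∧ w.imJ = 0
  · refine ⟨⟨0, 1, 0, 0⟩, rfl, ?_, ?_⟩
    · simp [nrd]
    · ext <;> simp [hw, h.1, h.2]
  · refine ⟨⟨0, b * w.imJ, -(a * w.imI), 0⟩, rfl, ?_, ?_⟩
    · intro h0
      have h1 := hab _ h0
      have h2 := congrArg QuaternionAlgebra.imI h1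
      have h3 := congrArg QuaternionAlgebra.imJ h1
      simp only [QuaternionAlgebra.imI_zero, QuaternionAlgebra.imJ_zero, neg_eq_zero, mul_eq_zero,
        Units.ne_zero, false_or] at h2 h3
      exact h ⟨h3, h2⟩
    · ext <;> simp [hw] <;> ring

/-- The conjugation by `v`. -/
def bar {a b : kˣ} (v : Qt a b) (x : MQ L a b) : MQ L a b := (-nrd v)⁻¹ • (sc L v * x * sc L v)

omit [CharZero k] in
theorem sc_bar {v : Qt a b} (hv : v.re = 0) (hn : nrd v ≠ 0) (x : MQ L a b) :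
    sc L v * x = bar v x * sc L v := by
  rw [bar, smul_mul_assoc, mul_assoc (sc L v * x), sc_sq hv, mul_smul_comm, mul_one, smul_smul,
    inv_mul_cancel₀ (neg_ne_zero.2 hn), one_smul]

omit [CharZero k] in
theorem bar_mul {v : Qt a b} (hv : v.re = 0) (hn : nrd v ≠ 0) (x y : MQ L a b) :
    bar v (x * y) = bar v x * bar v y := by
  have h : sc L v * sc L v = (-nrd v) • (1 : MQ L a b) := sc_sq hv
  have h2 : sc L v * x * sc L v * (sc L v * y * sc L v) =
      (-nrd v) • (sc L v * (x * y) * sc L v) := by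
    have : sc L v * x * sc L v * (sc L v * y * sc L v) =
        sc L v * x * (sc L v * sc L v) * y * sc L v := by simp only [mul_assoc]
    rw [this, h]
    simp only [mul_smul_comm, smul_mul_assoc, mul_one, mul_assoc]
  rw [bar, bar, bar, smul_mul_smul_comm, h2, smul_smul, mul_assoc (-nrd v)⁻¹ (-nrd v)⁻¹ (-nrd v),
    inv_mul_cancel₀ (neg_ne_zero.2 hn), mul_one]

omit [CharZero k] in
theorem bar_add {v : Qt a b} (x y : MQ L a b) : bar v (x + y) = bar v x + bar v y := by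
  rw [bar, bar, bar, mul_add, add_mul, smul_add]

omit [CharZero k] in
theorem bar_smul {v : Qt a b} (t : k) (x : MQ L a b) : bar v (t • x) = t • bar v x := by
  rw [bar, bar, mul_smul_comm, smul_mul_assoc, smul_comm]

omit [CharZero k] in
theorem bar_d0 {v : Qt a b} (hv : v.re = 0) (hn : nrd v ≠ 0) {x : MQ L a b}
    (hx : x ∈ d0 ρ lam a b) : bar v x = x := by
  rw [bar, sc_comm_d0 hx, mul_assoc, sc_sq hv, mul_smul_comm, mul_one, smul_smul,
    inv_mul_cancel₀ (neg_ne_zero.2 hn), one_smul]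

omit [CharZero k] in
theorem bar_bar {v : Qt a b} (hv : v.re = 0) (hn : nrd v ≠ 0) (x : MQ L a b) :
    bar v (bar v x) = x := by
  have h : sc L v * sc L v = (-nrd v) • (1 : MQ L a b) := sc_sq hv
  rw [bar, bar, mul_smul_comm, smul_mul_assoc]
  have : sc L v * (sc L v * x * sc L v) * sc L v =
      (sc L v * sc L v) * x * (sc L v * sc L v) := by simp only [mul_assoc]
  rw [this, h]
  simp only [mul_smul_comm, smul_mul_assoc, mul_one, one_mul, smul_smul]
  rw [show (-nrd v)⁻¹ * ((-nrd v)⁻¹ * (-nrd v * -nrd v)) = 1 by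
    have := neg_ne_zero.2 hn
    field_simp, one_smul]

omit [CharZero k] in
theorem bar_sc {v w : Qt a b} (hv : v.re = 0) (hn : nrd v ≠ 0) (hvw : w * v = -(v * w)) :
    bar v (sc L w) = -sc L w := by
  rw [bar, ← sc_mul, ← sc_mul, mul_assoc, hvw, mul_neg, ← mul_assoc, sc_neg, sc_mul, sc_mul,
    sc_sq hv, smul_mul_assoc, one_mul, smul_neg, smul_smul, inv_mul_cancel₀ (neg_ne_zero.2 hn),
    one_smul]

omit [CharZero k] in
theorem bar_mem {v w : Qt a b} (hv : v.re = 0) (hn : nrd v ≠ 0) (hvw : w * v = -(v * w))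
    {x : MQ L a b} (hx : x ∈ ew ρ lam w) : bar v x ∈ ew ρ lam w := by
  refine ⟨(dq ρ lam a b).smul_mem ((dq ρ lam a b).mul_mem ((dq ρ lam a b).mul_mem (sc_mem v)
    hx.1) (sc_mem v)) _, ?_⟩
  have h1 := congrArg (bar v) hx.2
  rw [bar_mul hv hn, bar_mul hv hn, bar_sc hv hn hvw, mul_neg, neg_mul, neg_inj] at h1
  exact h1

/-- Decomposition of `D ⊗ Q`. -/
theorem dq_comp {v w : Qt a b} (hv : v.re = 0) (hn : nrd v ≠ 0) (hw : w.re = 0) (hnw : nrd w ≠ 0)
    (hvw : w * v = -(v * w)) {x : MQ L a b} (hx : x ∈ dq ρ lam a b) :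
    ∃ x₀ ∈ ew ρ lam w, ∃ x₁ ∈ ew ρ lam w, x = x₀ + x₁ * sc L v := by
  have hW : sc L w * sc L w = (-nrd w) • (1 : MQ L a b) := sc_sq hw
  have hV : sc L v * sc L v = (-nrd v) • (1 : MQ L a b) := sc_sq hv
  have hWV : sc L w * sc L v = -(sc L v * sc L w) := by
    rw [← sc_mul, ← sc_mul, ← sc_neg, hvw]
  have cw : (-nrd w) ≠ 0 := neg_ne_zero.2 hnw
  have cv : (-nrd v) ≠ 0 := neg_ne_zero.2 hn
  have hWxW := (dq ρ lam a b).mul_mem ((dq ρ lam a b).mul_mem (sc_mem w) hx) (sc_mem w)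
  set c : k := -nrd w with hc
  have l1 : sc L w * (sc L w * x * sc L w) = c • (x * sc L w) := by
    rw [← mul_assoc, ← mul_assoc, hW]; simp only [smul_mul_assoc, one_mul]
  have l2 : sc L w * x * sc L w * sc L w = c • (sc L w * x) := by
    rw [mul_assoc _ (sc L w) (sc L w), hW]; simp only [mul_smul_comm, mul_one]
  refine ⟨(2 : k)⁻¹ • (x + c⁻¹ • (sc L w * x * sc L w)), ⟨(dq ρ lam a b).smul_mem
    ((dq ρ lam a b).add_mem hx ((dq ρ lam a b).smul_mem hWxW _)) _, ?_⟩,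
    (-nrd v)⁻¹ • ((2 : k)⁻¹ • (x - c⁻¹ • (sc L w * x * sc L w)) * sc L v),
    ⟨(dq ρ lam a b).smul_mem ((dq ρ lam a b).mul_mem ((dq ρ lam a b).smul_mem
      ((dq ρ lam a b).sub_mem hx ((dq ρ lam a b).smul_mem hWxW _)) _) (sc_mem v)) _, ?_⟩, ?_⟩
  · rw [smul_mul_assoc, mul_smul_comm, add_mul, mul_add, smul_mul_assoc, mul_smul_comm, l1, l2,
      smul_smul, smul_smul, inv_mul_cancel₀ cw, one_smul, one_smul, add_comm]
  · have e1 : (x - c⁻¹ • (sc L w * x * sc L w)) * sc L w =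
        -(sc L w * (x - c⁻¹ • (sc L w * x * sc L w))) := by
      rw [sub_mul, mul_sub, smul_mul_assoc, mul_smul_comm, l1, l2, smul_smul, smul_smul,
        inv_mul_cancel₀ cw, one_smul, one_smul, neg_sub]
    have e2 : (x - c⁻¹ • (sc L w * x * sc L w)) * sc L v * sc L w =
        sc L w * ((x - c⁻¹ • (sc L w * x * sc L w)) * sc L v) := by
      rw [mul_assoc, ← neg_neg (sc L v * sc L w), ← hWV, mul_neg, ← mul_assoc, e1,
        neg_mul, neg_neg, mul_assoc]
    simp only [smul_mul_assoc, mul_smul_comm]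
    rw [e2]
  · rw [smul_mul_assoc, smul_mul_assoc, smul_mul_assoc, mul_assoc _ (sc L v), hV, mul_smul_comm,
      mul_one, smul_comm (-nrd v)⁻¹, smul_smul (-nrd v)⁻¹, inv_mul_cancel₀ cv, one_smul,
      ← smul_add, add_add_sub_cancel, ← two_smul k x, smul_smul, inv_mul_cancel₀ two_ne_zero,
      one_smul]

theorem dq_ind {v w : Qt a b} (hv : v.re = 0) (hn : nrd v ≠ 0) (hw : w.re = 0) (hnw : nrd w ≠ 0)
    (hvw : w * v = -(v * w)) {x y : MQ L a b} (hx : x ∈ ew ρ lam w) (hy : y ∈ ew ρ lam w)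
    (h : x + y * sc L v = 0) : x = 0 ∧ y = 0 := by
  have hW : sc L w * sc L w = (-nrd w) • (1 : MQ L a b) := sc_sq hw
  have hV : sc L v * sc L v = (-nrd v) • (1 : MQ L a b) := sc_sq hv
  have hWV : sc L w * sc L v = -(sc L v * sc L w) := by
    rw [← sc_mul, ← sc_mul, ← sc_neg, hvw]
  have e1 : sc L w * (x + y * sc L v) = 0 := by rw [h, mul_zero]
  have e2 : (x + y * sc L v) * sc L w = 0 := by rw [h, zero_mul]
  rw [mul_add, ← mul_assoc, ← hx.2, ← hy.2, mul_assoc y, hWV, mul_neg, ← mul_assoc] at e1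
  rw [add_mul, mul_assoc] at e2
  have e3 : (2 : k) • (x * sc L w) = 0 := by
    rw [two_smul]
    have := congrArg₂ (· + ·) e1 e2
    simp only [add_zero] at this
    rw [← this, ← mul_assoc]
    abel
  have e4 : x * sc L w = 0 := (smul_eq_zero.1 e3).resolve_left two_ne_zero
  have e5 : x = 0 := by
    have : x * sc L w * sc L w = 0 := by rw [e4, zero_mul]
    rw [mul_assoc, hW, mul_smul_comm, mul_one] at this
    exact (smul_eq_zero.1 this).resolve_left (neg_ne_zero.2 hnw)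
  refine ⟨e5, ?_⟩
  rw [e5, zero_add] at h
  have : y * sc L v * sc L v = 0 := by rw [h, zero_mul]
  rw [mul_assoc, hV, mul_smul_comm, mul_one] at this
  exact (smul_eq_zero.1 this).resolve_left (neg_ne_zero.2 hn)

end comp

end Vale.Agent.P011.E6I
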