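import Vale.Agent.P011.E6I.H637.Conj
import Vale.Agent.P011.E6.H64.Split

/-!
Matrices over a commutative subring of the quaternion algebra.
-/

open Matrix

namespace Vale.Agent.P011.E6I

open Vale.Agent.P011.MPQ Vale.Agent.P011.D4 Vale.Agent.P011.D4.Oct Vale.Agent.P011.E6
open scoped QuadraticAlgebra

/-- The reduced norm of a matrix with coefficients in a commutative ring. -/
theorem nu_mapMatrix {F : Type} [Field F] (h2 : (2 : F) ≠ 0) {a b : Fˣ} (hQ : Aniso a b)
    {S : Type} [CommRing S] (κ : S →+* Qt a b) (M : Matrix (Fin 3) (Fin 3) S) :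
    nu (κ.mapMatrix M) = nrd (κ M.det) := by
  obtain ⟨f, hf⟩ := H64.exists_split (a := a) (b := b)
  have h1 := H64.rN_eq_nu h2 hQ f hf (κ.mapMatrix M)
  have h3 : H64.rN f (κ.mapMatrix M) = (f.toRingHom.comp κ M.det).det := by
    rw [Matrix.det_det]
    rfl
  have h4 : (f.toRingHom.comp κ M.det).det = algebraMap F (AlgebraicClosure F)
      (nrd (κ M.det)) := hf _
  rw [h3, h4] at h1
  exact ((algebraMap F (AlgebraicClosure F)).injective h1).symm

section ch

variable {S : Type} [CommRing S]

/-- The second coefficient of the characteristic polynomial. -/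
def s2 (M : Matrix (Fin 3) (Fin 3) S) : S :=
  M 0 0 * M 1 1 - M 0 1 * M 1 0 + (M 0 0 * M 2 2 - M 0 2 * M 2 0) +
    (M 1 1 * M 2 2 - M 1 2 * M 2 1)

/-- The theorem of Cayley and Hamilton. -/
theorem cubicAt_char (M : Matrix (Fin 3) (Fin 3) S) : cubicAt M.trace (s2 M) M.det M = 0 := by
  apply Matrix.ext
  intro i j
  simp only [cubicAt, s2, Matrix.trace_fin_three, Matrix.det_fin_three, Matrix.sub_apply,
    Matrix.add_apply, Matrix.smul_apply, Matrix.mul_apply, Fin.sum_univ_three, Matrix.one_apply,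
    Matrix.zero_apply, smul_eq_mul]
  fin_cases i <;> fin_cases j <;> simp <;> ring

theorem two_s2 (M : Matrix (Fin 3) (Fin 3) S) :
    2 * s2 M = M.trace ^ 2 - (M * M).trace := by
  simp only [s2, Matrix.trace_fin_three, Matrix.mul_apply, Fin.sum_univ_three]
  ring

theorem s2_comm (h2 : IsUnit (2 : S)) (M N : Matrix (Fin 3) (Fin 3) S) :
    s2 (M * N) = s2 (N * M) := by
  apply h2.mul_left_cancel
  rw [two_s2, two_s2, Matrix.trace_mul_comm M N]
  congr 1
  rw [Matrix.mul_assoc, Matrix.trace_mul_comm M]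
  simp only [Matrix.mul_assoc]

theorem s2_map {T : Type} [CommRing T] (f : S →+* T) (M : Matrix (Fin 3) (Fin 3) S) :
    s2 (f.mapMatrix M) = f (s2 M) := by
  simp [s2]

/-- The second coefficient of an invertible matrix. -/
theorem s2_eq {M N : Matrix (Fin 3) (Fin 3) S} (h : M * N = 1) : s2 M = M.det * N.trace := by
  have h1 := cubicAt_char M
  have h2 : cubicAt M.trace (s2 M) M.det M * N = 0 := by rw [h1, zero_mul]
  have h3 : cubicAt M.trace (s2 M) M.det M * N =
      M * M - M.trace • M + s2 M • 1 - M.det • N := by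
    simp only [cubicAt, sub_mul, add_mul, smul_mul_assoc, mul_assoc, h, mul_one, one_mul]
  rw [h3] at h2
  have h4 := congrArg Matrix.trace h2
  simp only [Matrix.trace_sub, Matrix.trace_add, Matrix.trace_smul, Matrix.trace_one,
    Matrix.trace_zero, Fintype.card_fin, smul_eq_mul] at h4
  have h5 := two_s2 M
  push_cast at h4
  linear_combination h4 - h5

end ch

section lp

variable {k L : Type} [Field k] [Field L] [Algebra k L] {ρ : L ≃ₐ[k] L} {lam : kˣ} {a b : kˣ}

/-- The commutative ring `L ⊗ k(w)`. -/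
abbrev LP (L : Type) [Field L] [Algebra k L] {a b : kˣ} (w : Qt a b) : Type :=
  QuadraticAlgebra L (algebraMap k L (-nrd w)) 0

theorem qup_sq {w : Qt a b} (hw : w.re = 0) :
    qup L w * qup L w = algebraMap k L (-nrd w) • (1 : Qt (up L a) (up L b)) := by
  rw [← qup_mul, sq_pure hw, qup_smul, qup_one]

/-- The inclusion of `L ⊗ k(w)` in the quaternion algebra. -/
def kap {w : Qt a b} (hw : w.re = 0) : LP L w →+* Qt (up L a) (up L b) where
  toFun z := z.re • 1 + z.im • qup L w
  map_one' := by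
    rw [QuadraticAlgebra.re_one, QuadraticAlgebra.im_one, one_smul, zero_smul, add_zero]
  map_zero' := by
    rw [QuadraticAlgebra.re_zero, QuadraticAlgebra.im_zero, zero_smul, zero_smul, add_zero]
  map_add' x y := by
    rw [QuadraticAlgebra.re_add, QuadraticAlgebra.im_add]
    module
  map_mul' x y := by
    rw [QuadraticAlgebra.re_mul, QuadraticAlgebra.im_mul]
    simp only [add_mul, mul_add, smul_mul_assoc, mul_smul_comm, one_mul, mul_one, qup_sq hw]
    module

theorem kap_apply {w : Qt a b} (hw : w.re = 0) (z : LP L w) :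
    kap hw z = z.re • 1 + z.im • qup L w := rfl

theorem star_qup {w : Qt a b} (hw : w.re = 0) : star (qup L w) = -qup L w := by
  rw [← qup_star, ← qup_neg]
  congr 1
  ext <;> simp [hw]

theorem kap_star {w : Qt a b} (hw : w.re = 0) (z : LP L w) : kap hw (star z) = star (kap hw z) := by
  rw [kap_apply, kap_apply, star_add, QuaternionAlgebra.star_smul, QuaternionAlgebra.star_smul,
    star_qup hw, star_one, QuadraticAlgebra.re_star, QuadraticAlgebra.im_star]
  module

theorem kap_injective {w : Qt a b} (hw : w.re = 0) (hn : nrd w ≠ 0) :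
    Function.Injective (kap (L := L) hw) := by
  rw [injective_iff_map_eq_zero]
  intro z hz
  rw [kap_apply] at hz
  have r0 : (qup L w).re = 0 := by
    change algebraMap k L w.re = 0
    rw [hw, map_zero]
  have h0 : z.re = 0 := by
    have e1 := congrArg QuaternionAlgebra.re hz
    rw [QuaternionAlgebra.re_add, QuaternionAlgebra.re_smul, QuaternionAlgebra.re_smul, r0,
      smul_zero, add_zero, QuaternionAlgebra.re_one, smul_eq_mul, mul_one] at e1
    exact e1
  rw [h0, zero_smul, zero_add] at hz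
  have h1 : qup L w ≠ 0 := by
    intro h2
    apply hn
    have h3 : algebraMap k L (nrd w) = 0 := by
      rw [← nrd_qup, h2]
      simp [nrd]
    exact (map_eq_zero _).1 h3
  have h2 := (smul_eq_zero.1 hz).resolve_right h1
  exact QuadraticAlgebra.ext h0 h2

theorem kapM_injective {w : Qt a b} (hw : w.re = 0) (hn : nrd w ≠ 0) :
    Function.Injective ((kap (L := L) hw).mapMatrix (m := Fin 3)) := by
  intro x y h
  apply Matrix.ext
  intro i j
  exact kap_injective hw hn (congrFun (congrFun h i) j)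

/-- The action of `ρ` on `L ⊗ k(w)`. -/
def rhoP (ρ : L ≃ₐ[k] L) (w : Qt a b) : LP L w →+* LP L w where
  toFun z := ⟨ρ z.re, ρ z.im⟩
  map_one' := QuadraticAlgebra.ext (map_one ρ) (map_zero ρ)
  map_zero' := QuadraticAlgebra.ext (map_zero ρ) (map_zero ρ)
  map_add' x y := QuadraticAlgebra.ext (map_add ρ _ _) (map_add ρ _ _)
  map_mul' x y := by
    apply QuadraticAlgebra.ext
    · simp [QuadraticAlgebra.re_mul]
    · simp [QuadraticAlgebra.im_mul]

theorem kap_rhoP {w : Qt a b} (hw : w.re = 0) (z : LP L w) :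
    kap hw (rhoP ρ w z) = qmap ρ (kap hw z) := by
  rw [kap_apply, kap_apply, qmap_add, qmap_smul, qmap_smul, qmap_one, qmap_qup]
  rfl

/-- The matrix `u`, over `L ⊗ k(w)`. -/
def uP (L : Type) [Field L] [Algebra k L] (lam : kˣ) (w : Qt a b) :
    Matrix (Fin 3) (Fin 3) (LP L w) := (u0 L lam).map (algebraMap L (LP L w))

theorem kap_uP {w : Qt a b} (hw : w.re = 0) :
    (kap hw).mapMatrix (uP L lam w) = toMQ (u0 L lam) := by
  apply Matrix.ext
  intro i j
  change kap hw (algebraMap L (LP L w) (u0 L lam i j)) = algebraMap L _ (u0 L lam i j)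
  rw [kap_apply, QuadraticAlgebra.algebraMap_re, QuadraticAlgebra.algebraMap_im, zero_smul,
    add_zero, Algebra.algebraMap_eq_smul_one]

theorem isUnit_det_uP (w : Qt a b) : IsUnit (uP L lam w).det := by
  have h : (uP L lam w).det = algebraMap L (LP L w) ((up L lam)⁻¹ : Lˣ) := by
    have e : (uP L lam w).det = algebraMap L (LP L w) (u0 L lam).det :=
      ((algebraMap L (LP L w)).map_det (u0 L lam)).symm
    rw [e]
    congr 1
    simp [u0, Matrix.det_fin_three]
  rw [h]
  exact ((up L lam)⁻¹ : Lˣ).isUnit.map _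

/-- The matrices over `L ⊗ k(w)` which belong to `D ⊗ k(w)`. -/
def EqU (ρ : L ≃ₐ[k] L) (lam : kˣ) (w : Qt a b) (M : Matrix (Fin 3) (Fin 3) (LP L w)) : Prop :=
  M * uP L lam w = uP L lam w * (rhoP ρ w).mapMatrix M

theorem EqU.mul {w : Qt a b} {M N : Matrix (Fin 3) (Fin 3) (LP L w)} (hM : EqU ρ lam w M)
    (hN : EqU ρ lam w N) : EqU ρ lam w (M * N) := by
  rw [EqU, mul_assoc, hN, ← mul_assoc, hM, map_mul, mul_assoc]

theorem EqU.det {w : Qt a b} {M : Matrix (Fin 3) (Fin 3) (LP L w)} (hM : EqU ρ lam w M) :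
    rhoP ρ w M.det = M.det := by
  have h := congrArg Matrix.det hM
  rw [Matrix.det_mul, Matrix.det_mul, mul_comm, ← RingHom.map_det] at h
  exact ((isUnit_det_uP w).mul_left_cancel h).symm

theorem EqU.trace {w : Qt a b} {M : Matrix (Fin 3) (Fin 3) (LP L w)} (hM : EqU ρ lam w M) :
    rhoP ρ w M.trace = M.trace := by
  have hu : IsUnit (uP L lam w) := (Matrix.isUnit_iff_isUnit_det _).2 (isUnit_det_uP w)
  obtain ⟨u, hu⟩ := hu
  have h : M = (u : Matrix (Fin 3) (Fin 3) (LP L w)) * (rhoP ρ w).mapMatrix M *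
      ((u⁻¹ : (Matrix (Fin 3) (Fin 3) (LP L w))ˣ) : Matrix (Fin 3) (Fin 3) (LP L w)) := by
    rw [hu, ← hM, ← hu, Units.mul_inv_cancel_right]
  have e : M.trace = ((rhoP ρ w).mapMatrix M).trace := by
    conv_lhs => rw [h]
    rw [Matrix.trace_mul_comm, ← mul_assoc, Units.inv_mul, one_mul]
  have e2 : rhoP ρ w M.trace = ((rhoP ρ w).mapMatrix M).trace := by
    simp [Matrix.trace, map_sum]
  exact e2.trans e.symm

theorem isUnit_two [CharZero k] (w : Qt a b) : IsUnit (2 : LP L w) := by
  have hc0 : CharZero L := charZero_of_injective_algebraMap (algebraMap k L).injective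
  have h : (2 : LP L w) = algebraMap L (LP L w) 2 := by
    rw [map_ofNat]
  rw [h]
  exact (isUnit_iff_ne_zero.2 two_ne_zero).map _

theorem EqU.s2 [CharZero k] {w : Qt a b} {M : Matrix (Fin 3) (Fin 3) (LP L w)}
    (hM : EqU ρ lam w M) : rhoP ρ w (s2 M) = s2 M := by
  apply (isUnit_two (L := L) w).mul_left_cancel
  have h2 : (2 : LP L w) = rhoP ρ w 2 := (map_ofNat _ 2).symm
  conv_lhs => rw [h2]
  rw [← map_mul, two_s2, map_sub, map_pow, hM.trace, (hM.mul hM).trace]

/-- Lifting to the commutative coefficients. -/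
theorem lift_ew [CharZero k] {w : Qt a b} (hw : w.re = 0) (hn : nrd w ≠ 0) {m : MQ L a b}
    (hm : m ∈ ew ρ lam w) : ∃ M, (kap hw).mapMatrix M = m ∧ EqU ρ lam w M := by
  obtain ⟨hm1, hm2⟩ := hm
  obtain ⟨x₀, x₁, h⟩ := exists_comp hw hn hm2
  have e : (kap hw).mapMatrix (Matrix.of fun i j => (⟨x₀ i j, x₁ i j⟩ : LP L w)) = m := by
    rw [h]
    apply Matrix.ext
    intro i j
    simp only [sc, Matrix.add_apply, Matrix.mul_diagonal, toMQ, Matrix.map_apply,
      RingHom.mapMatrix_apply, Matrix.of_apply, kap_apply]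
    rw [← Algebra.smul_def, Algebra.algebraMap_eq_smul_one]
  refine ⟨_, e, ?_⟩
  apply kapM_injective hw hn
  rw [map_mul, map_mul, e, kap_uP]
  have e2 : (kap hw).mapMatrix ((rhoP ρ w).mapMatrix
      (Matrix.of fun i j => (⟨x₀ i j, x₁ i j⟩ : LP L w))) = m.map (qmap ρ) := by
    rw [← e]
    apply Matrix.ext
    intro i j
    exact kap_rhoP hw _
  rw [e2]
  exact hm1

/-- Elements of `L ⊗ k(w)` fixed by `ρ` and by the conjugation are in the ground field. -/
theorem exists_k [CharZero k] (hfix : ∀ t : L, ρ t = t → ∃ s : k, algebraMap k L s = t)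
    {w : Qt a b} {z : LP L w} (h1 : rhoP ρ w z = z) (h2 : star z = z) :
    ∃ s : k, z = algebraMap L (LP L w) (algebraMap k L s) := by
  have hc0 : CharZero L := charZero_of_injective_algebraMap (algebraMap k L).injective
  obtain ⟨s, hs⟩ := hfix z.re (congrArg QuadraticAlgebra.re h1)
  refine ⟨s, QuadraticAlgebra.ext ?_ ?_⟩
  · rw [QuadraticAlgebra.algebraMap_re, hs]
  · rw [QuadraticAlgebra.algebraMap_im]
    have h3 := congrArg QuadraticAlgebra.im h2
    rw [QuadraticAlgebra.im_star] at h3
    have h4 : (2 : L) * z.im = 0 := by linear_combination -h3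
    exact (mul_eq_zero.1 h4).resolve_left two_ne_zero

theorem kapM_smul {w : Qt a b} (hw : w.re = 0) (s : k) (M : Matrix (Fin 3) (Fin 3) (LP L w)) :
    (kap hw).mapMatrix (algebraMap L (LP L w) (algebraMap k L s) • M) =
      s • (kap hw).mapMatrix M := by
  apply Matrix.ext
  intro i j
  rw [ksmul_eq]
  simp only [RingHom.mapMatrix_apply, Matrix.map_apply, Matrix.smul_apply, smul_eq_mul, map_mul]
  rw [kap_apply (z := algebraMap L (LP L w) _), QuadraticAlgebra.algebraMap_re,
    QuadraticAlgebra.algebraMap_im, zero_smul, add_zero, smul_mul_assoc, one_mul]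

theorem kapM_cubic {w : Qt a b} (hw : w.re = 0) {t s n : k} {M : Matrix (Fin 3) (Fin 3) (LP L w)}
    (h : cubicAt (algebraMap L (LP L w) (algebraMap k L t))
      (algebraMap L (LP L w) (algebraMap k L s)) (algebraMap L (LP L w) (algebraMap k L n)) M = 0) :
    cubicAt t s n ((kap hw).mapMatrix M) = 0 := by
  have h1 := congrArg (kap hw).mapMatrix h
  rw [cubicAt, map_sub, map_add, map_sub, kapM_smul, kapM_smul, kapM_smul, map_mul, map_mul,
    map_one, map_zero] at h1
  exact h1

/-- The conjugation of coefficients. -/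
theorem kapM_star {w v : Qt a b} (hw : w.re = 0) (hv : v.re = 0) (hnv : nrd v ≠ 0)
    (hvw : w * v = -(v * w)) (M : Matrix (Fin 3) (Fin 3) (LP L w)) :
    (kap hw).mapMatrix (M.map star) = bar v ((kap hw).mapMatrix M) := by
  have h : ∀ z : LP L w, kap hw (star z) * qup L v = qup L v * kap hw z := by
    intro z
    rw [kap_star, kap_apply, star_add, QuaternionAlgebra.star_smul, QuaternionAlgebra.star_smul,
      star_qup hw, star_one, add_mul, mul_add, smul_mul_assoc, smul_mul_assoc, mul_smul_comm,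
      mul_smul_comm, one_mul, mul_one, neg_mul, ← qup_mul, hvw, qup_neg, neg_neg, qup_mul]
  have hV : sc L v * sc L v = (-nrd v) • (1 : MQ L a b) := sc_sq hv
  have e : (kap hw).mapMatrix (M.map star) * sc L v = sc L v * (kap hw).mapMatrix M := by
    apply Matrix.ext
    intro i j
    simp only [sc, Matrix.diagonal_mul, Matrix.mul_diagonal, RingHom.mapMatrix_apply,
      Matrix.map_apply]
    exact h _
  rw [bar, ← e, mul_assoc, hV, mul_smul_comm, mul_one, smul_smul,
    inv_mul_cancel₀ (neg_ne_zero.2 hnv), one_smul]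

/-- The entrywise conjugation. -/
theorem kapM_star' {w : Qt a b} (hw : w.re = 0) (M : Matrix (Fin 3) (Fin 3) (LP L w)) :
    (kap hw).mapMatrix (M.map star) = ((kap hw).mapMatrix M).map star := by
  apply Matrix.ext
  intro i j
  exact kap_star hw _

theorem map_star_mul {w : Qt a b} (M N : Matrix (Fin 3) (Fin 3) (LP L w)) :
    (M * N).map star = M.map star * N.map star :=
  map_mul (starRingEnd (LP L w)).mapMatrix M N

theorem det_map_star {w : Qt a b} (M : Matrix (Fin 3) (Fin 3) (LP L w)) :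
    (M.map star).det = star M.det := ((starRingEnd (LP L w)).map_det M).symm

theorem trace_map_star {w : Qt a b} (M : Matrix (Fin 3) (Fin 3) (LP L w)) :
    (M.map star).trace = star M.trace := by
  simp [Matrix.trace, star_sum]

theorem s2_map_star {w : Qt a b} (M : Matrix (Fin 3) (Fin 3) (LP L w)) :
    s2 (M.map star) = star (s2 M) := s2_map (starRingEnd (LP L w)) M

/-- The elements `z z̄` have a cubic equation over the ground field. -/
theorem exists_cubic_mul_bar [CharZero k]
    (hfix : ∀ t : L, ρ t = t → ∃ s : k, algebraMap k L s = t)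
    {w v : Qt a b} (hw : w.re = 0) (hn : nrd w ≠ 0) (hv : v.re = 0) (hnv : nrd v ≠ 0)
    (hvw : w * v = -(v * w)) {z : MQ L a b} (hz : z ∈ ew ρ lam w) :
    ∃ t s n : k, cubicAt t s n (z * bar v z) = 0 := by
  obtain ⟨M, rfl, hM⟩ := lift_ew hw hn hz
  obtain ⟨M', hM', hM'2⟩ := lift_ew hw hn (bar_mem hv hnv hvw hz)
  have hMM : M' = M.map star := by
    apply kapM_injective hw hn
    rw [hM', kapM_star hw hv hnv hvw]
  subst hMM
  have hU := hM.mul hM'2
  have hss : (M.map star).map star = M := by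
    apply Matrix.ext
    intro i j
    exact star_star _
  obtain ⟨t, ht⟩ := exists_k hfix hU.trace (by
    rw [← trace_map_star, map_star_mul, hss, Matrix.trace_mul_comm])
  obtain ⟨s, hs⟩ := exists_k hfix hU.s2 (by
    rw [← s2_map_star, map_star_mul, hss, s2_comm (isUnit_two w)])
  obtain ⟨n, hn'⟩ := exists_k hfix hU.det (by
    rw [← det_map_star, map_star_mul, hss, Matrix.det_mul, Matrix.det_mul, mul_comm])
  refine ⟨t, s, n, ?_⟩
  rw [← kapM_star hw hv hnv hvw, ← map_mul]
  apply kapM_cubic hw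
  rw [← ht, ← hs, ← hn']
  exact cubicAt_char _

end lp

end Vale.Agent.P011.E6I
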