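import Vale.Agent.P011.E6I.H637.Shift

/-!
Block E6I: the cubic polynomial of `y + y⁻¹`, and the lifts to matrices over `L ⊗ k(w)`.
-/

namespace Vale.Agent.P011.E6I.H637

open NumberField Matrix
open Vale.Agent.P011.MPQ Vale.Agent.P011.D4 Vale.Agent.P011.D4.Oct Vale.Agent.P011.E6
open Vale.Agent.P011.E6I

section mat

variable {S : Type} [CommRing S]

theorem sq_eq {Y Z : Matrix (Fin 3) (Fin 3) S} (hYZ : Y * Z = 1) :
    Y * Y = Y.trace • Y - (Y.det * Z.trace) • (1 : Matrix (Fin 3) (Fin 3) S) + Y.det • Z := by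
  have hY := cubicAt_char Y
  rw [s2_eq hYZ, cubicAt] at hY
  have h := congrArg (· * Z) hY
  simp only [sub_mul, add_mul, smul_mul_assoc, one_mul, zero_mul] at h
  rw [mul_assoc (Y * Y), mul_assoc Y Y Z, hYZ, mul_one, mul_one] at h
  linear_combination (norm := module) h

/-- The polynomial of `Y + Y⁻¹`. -/
theorem cubic_recip {Y Z : Matrix (Fin 3) (Fin 3) S} (hYZ : Y * Z = 1) (hZY : Z * Y = 1) :
    cubicAt (Y.trace + Z.trace) (Y.det * Z.trace + Z.det * Y.trace + Y.trace * Z.trace - 3)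
      (Y.det + Z.det + Y.det * Z.trace ^ 2 + Z.det * Y.trace ^ 2 - 2 * Y.trace - 2 * Z.trace)
      (Y + Z) = 0 := by
  have hνν : Y.det * Z.det = 1 := by rw [← Matrix.det_mul, hYZ, Matrix.det_one]
  have hY2 := sq_eq hYZ
  have hZ2 := sq_eq hZY
  set T := Y.trace
  set T' := Z.trace
  set ν := Y.det
  set ν' := Z.det
  have hU2 : (Y + Z) * (Y + Z) = (T + ν') • Y + (T' + ν) • Z +
      (2 - ν * T' - ν' * T) • (1 : Matrix (Fin 3) (Fin 3) S) := by
    rw [mul_add, add_mul, add_mul, hY2, hZ2, hYZ, hZY]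
    module
  have hU3 : (Y + Z) * (Y + Z) * (Y + Z) =
      (T + ν') • (T • Y - (ν * T') • (1 : Matrix (Fin 3) (Fin 3) S) + ν • Z) +
      (T + ν') • (1 : Matrix (Fin 3) (Fin 3) S) + (T' + ν) • (1 : Matrix (Fin 3) (Fin 3) S) +
      (T' + ν) • (T' • Z - (ν' * T) • (1 : Matrix (Fin 3) (Fin 3) S) + ν' • Y) +
      (2 - ν * T' - ν' * T) • (Y + Z) := by
    rw [hU2, add_mul, add_mul, smul_mul_assoc, smul_mul_assoc, smul_mul_assoc, one_mul, mul_add,
      mul_add, hYZ, hZY, ← hY2, ← hZ2]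
    module
  have h : cubicAt (T + T') (ν * T' + ν' * T + T * T' - 3)
      (ν + ν' + ν * T' ^ 2 + ν' * T ^ 2 - 2 * T - 2 * T') (Y + Z) =
      (ν * ν' - 1) • ((Y + Z) - (T + T') • (1 : Matrix (Fin 3) (Fin 3) S)) := by
    rw [cubicAt, hU3, hU2]
    module
  rw [h, hνν, sub_self, zero_smul]

end mat

section quat

variable {F : Type} [Field F] {a b : Fˣ}

theorem qmul_star (x : Qt a b) : x * star x = (nrd x) • (1 : Qt a b) := by
  ext <;> simp [nrd] <;> ring

end quat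

section lift

variable {k L : Type} [Field k] [NumberField k] [Field L] [NumberField L] [Algebra k L]
  {ρ : L ≃ₐ[k] L} {lam : kˣ} {a b c : kˣ}

omit [NumberField k] [NumberField L] in
theorem kap_trace {w : Qt a b} (hw : w.re = 0) (M : Matrix (Fin 3) (Fin 3) (LP L w)) :
    ((kap hw).mapMatrix M).trace = kap hw M.trace := by
  simp [Matrix.trace, map_sum]

omit [NumberField L] in
/-- The lifts of a unit of `D ⊗ k(w)`. -/
theorem exists_lift {w : Qt a b} (hw : w.re = 0) (hn : nrd w ≠ 0) {y z : MQ L a b}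
    (hy : y ∈ ew ρ lam w) (hz : z ∈ ew ρ lam w) (hyz : y * z = 1) (hzy : z * y = 1) :
    ∃ Y Z : Matrix (Fin 3) (Fin 3) (LP L w), (kap hw).mapMatrix Y = y ∧
      (kap hw).mapMatrix Z = z ∧ EqU ρ lam w Y ∧ EqU ρ lam w Z ∧ Y * Z = 1 ∧ Z * Y = 1 := by
  obtain ⟨Y, rfl, hY⟩ := lift_ew hw hn hy
  obtain ⟨Z, rfl, hZ⟩ := lift_ew hw hn hz
  refine ⟨Y, Z, rfl, rfl, hY, hZ, ?_, ?_⟩
  · apply kapM_injective hw hn
    rw [map_mul, map_one, hyz]
  · apply kapM_injective hw hn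
    rw [map_mul, map_one, hzy]

theorem det_star_of_nu (H : Hyp ρ lam a b c) {w : Qt a b} (hw : w.re = 0) (hn : nrd w ≠ 0)
    {Y : Matrix (Fin 3) (Fin 3) (LP L w)} (h : nu ((kap hw).mapMatrix Y) = 1) :
    Y.det * star Y.det = 1 := by
  apply kap_injective hw hn
  rw [map_mul, kap_star, map_one, qmul_star,
    ← nu_mapMatrix (two_ne_zero) H.aniso (kap hw) Y, h, one_smul]

end lift

end Vale.Agent.P011.E6I.H637
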