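import Vale.Agent.P011.E6I.H637.Rec0

/-!
Block E6I: an element of `D ⊗ k(w)` which is quadratic over `k(w)` belongs to `k(w)`.
-/

namespace Vale.Agent.P011.E6I.H637

open NumberField Matrix
open Vale.Agent.P011.MPQ Vale.Agent.P011.D4 Vale.Agent.P011.D4.Oct Vale.Agent.P011.E6
open Vale.Agent.P011.E6I

section basic

variable {k L : Type} [Field k] [Field L] [Algebra k L]
  {ρ : L ≃ₐ[k] L} {lam : kˣ} {a b c : kˣ}

theorem kapM_map {w : Qt a b} (hw : w.re = 0) (M : Matrix (Fin 3) (Fin 3) (LP L w)) :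
    (kap hw).mapMatrix ((rhoP ρ w).mapMatrix M) = ((kap hw).mapMatrix M).map (qmap ρ) := by
  apply Matrix.ext
  intro i j
  exact kap_rhoP hw _

/-- The element `w` of the ring. -/
def wP (L : Type) [Field L] [Algebra k L] (w : Qt a b) : LP L w := ⟨0, 1⟩

theorem kap_wP {w : Qt a b} (hw : w.re = 0) : kap hw (wP L w) = qup L w := by
  rw [kap_apply, wP, zero_smul, one_smul, zero_add]

theorem kapM_wP {w : Qt a b} (hw : w.re = 0) :
    (kap hw).mapMatrix (wP L w • (1 : Matrix (Fin 3) (Fin 3) (LP L w))) = sc L w := by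
  apply Matrix.ext
  intro i j
  simp only [RingHom.mapMatrix_apply, Matrix.map_apply, Matrix.smul_apply, smul_eq_mul, map_mul,
    Matrix.one_apply, sc, Matrix.diagonal_apply, kap_wP]
  split_ifs <;> simp

theorem mem_ew_kapM {w : Qt a b} (hw : w.re = 0) {M : Matrix (Fin 3) (Fin 3) (LP L w)}
    (hM : EqU ρ lam w M) : (kap hw).mapMatrix M ∈ ew ρ lam w := by
  refine ⟨?_, ?_⟩
  · change (kap hw).mapMatrix M * toMQ (u0 L lam) =
      toMQ (u0 L lam) * ((kap hw).mapMatrix M).map (qmap ρ)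
    rw [← kapM_map, ← kap_uP hw, ← map_mul, ← map_mul]
    exact congrArg _ hM
  · rw [← kapM_wP hw, ← map_mul, ← map_mul, mul_smul_comm, smul_mul_assoc, one_mul, mul_one]

theorem eqU_smul {w : Qt a b} {M : Matrix (Fin 3) (Fin 3) (LP L w)}
    (hM : EqU ρ lam w M) {e : LP L w} (he : rhoP ρ w e = e) : EqU ρ lam w (e • M) := by
  have h : (rhoP ρ w).mapMatrix (e • M) = e • (rhoP ρ w).mapMatrix M := by
    apply Matrix.ext
    intro i j
    simp only [RingHom.mapMatrix_apply, Matrix.map_apply, Matrix.smul_apply, smul_eq_mul, map_mul,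
      he]
  have h1 : M * uP L lam w = uP L lam w * (rhoP ρ w).mapMatrix M := hM
  change (e • M) * uP L lam w = uP L lam w * (rhoP ρ w).mapMatrix (e • M)
  rw [h, smul_mul_assoc, mul_smul_comm, h1]

theorem eqU_one {w : Qt a b} : EqU ρ lam w (1 : Matrix (Fin 3) (Fin 3) (LP L w)) := by
  change 1 * uP L lam w = uP L lam w * (rhoP ρ w).mapMatrix 1
  rw [map_one, one_mul, mul_one]

theorem eqU_add {w : Qt a b} {M N : Matrix (Fin 3) (Fin 3) (LP L w)}
    (hM : EqU ρ lam w M) (hN : EqU ρ lam w N) : EqU ρ lam w (M + N) := by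
  have h1 : M * uP L lam w = uP L lam w * (rhoP ρ w).mapMatrix M := hM
  have h2 : N * uP L lam w = uP L lam w * (rhoP ρ w).mapMatrix N := hN
  change (M + N) * uP L lam w = uP L lam w * (rhoP ρ w).mapMatrix (M + N)
  rw [map_add, add_mul, mul_add, h1, h2]

theorem eqU_sub {w : Qt a b} {M N : Matrix (Fin 3) (Fin 3) (LP L w)}
    (hM : EqU ρ lam w M) (hN : EqU ρ lam w N) : EqU ρ lam w (M - N) := by
  have h1 : M * uP L lam w = uP L lam w * (rhoP ρ w).mapMatrix M := hM
  have h2 : N * uP L lam w = uP L lam w * (rhoP ρ w).mapMatrix N := hN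
  change (M - N) * uP L lam w = uP L lam w * (rhoP ρ w).mapMatrix (M - N)
  rw [map_sub, sub_mul, mul_sub, h1, h2]

end basic

variable {k L : Type} [Field k] [NumberField k] [Field L] [NumberField L] [Algebra k L]
  {ρ : L ≃ₐ[k] L} {lam : kˣ} {a b c : kˣ}

theorem quad_P (H : Hyp ρ lam a b c) {w : Qt a b} (hw : w.re = 0) (hn : nrd w ≠ 0)
    {X : Matrix (Fin 3) (Fin 3) (LP L w)} (hX : EqU ρ lam w X) {α β : LP L w}
    (hα : rhoP ρ w α = α) (hβ : rhoP ρ w β = β)
    (h : X * X = α • X + β • (1 : Matrix (Fin 3) (Fin 3) (LP L w))) :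
    ∃ e : LP L w, rhoP ρ w e = e ∧ X = e • (1 : Matrix (Fin 3) (Fin 3) (LP L w)) := by
  obtain ⟨hh, hhh⟩ : ∃ hh : LP L w, 2 * hh = 1 := by
    obtain ⟨u, hu⟩ := isUnit_two (L := L) w
    exact ⟨((u⁻¹ : (LP L w)ˣ) : LP L w), by rw [← hu, Units.mul_inv]⟩
  have hhf : rhoP ρ w hh = hh := by
    have h1 := congrArg (rhoP ρ w) hhh
    rw [map_mul, map_one, map_ofNat] at h1
    calc rhoP ρ w hh = (2 * hh) * rhoP ρ w hh := by rw [hhh, one_mul]
      _ = hh * (2 * rhoP ρ w hh) := by ring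
      _ = hh := by rw [h1, mul_one]
  have hsf : rhoP ρ w (hh * α) = hh * α := by rw [map_mul, hhf, hα]
  set W := X - (hh * α) • (1 : Matrix (Fin 3) (Fin 3) (LP L w)) with hW
  set c0 := β + (hh * α) * (hh * α) with hc0
  have hXW : X = W + (hh * α) • (1 : Matrix (Fin 3) (Fin 3) (LP L w)) := by rw [hW]; abel
  have hWU : EqU ρ lam w W := eqU_sub hX (eqU_smul eqU_one hsf)
  have hWW : W * W = c0 • (1 : Matrix (Fin 3) (Fin 3) (LP L w)) := by
    have e : W * W = X * X - (2 * (hh * α)) • X + ((hh * α) * (hh * α)) • 1 := by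
      rw [hW, sub_mul, mul_sub, mul_sub, smul_mul_assoc, mul_smul_comm, one_mul, mul_one,
        smul_mul_assoc, mul_smul_comm, one_mul]
      module
    have e2 : 2 * (hh * α) = α := by rw [← mul_assoc, hhh, one_mul]
    rw [e, h, e2, hc0]
    module
  by_cases hW0 : W = 0
  · exact ⟨hh * α, hsf, by rw [hXW, hW0, zero_add]⟩
  have hwm := mem_ew_kapM (ρ := ρ) (lam := lam) hw hWU
  have hwne : (kap hw).mapMatrix W ≠ 0 := by
    intro h0
    exact hW0 (kapM_injective hw hn (by rw [h0, map_zero]))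
  obtain ⟨v, hv, hv1, hv2⟩ := inv_ew H hwm hwne
  obtain ⟨V, rfl, hVU⟩ := lift_ew hw hn hv
  have hWV : W * V = 1 := by
    apply kapM_injective hw hn
    rw [map_mul, map_one, hv1]
  -- the inverse of `c0`
  have hVV : c0 • (V * V) = 1 := by
    calc c0 • (V * V) = (c0 • (1 : Matrix (Fin 3) (Fin 3) (LP L w))) * (V * V) := by
          rw [smul_mul_assoc, one_mul]
      _ = W * W * (V * V) := by rw [hWW]
      _ = W * ((W * V) * V) := by simp only [mul_assoc]
      _ = 1 := by rw [hWV, one_mul, hWV]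
  obtain ⟨c1, hc1⟩ : ∃ c1 : LP L w, c0 * c1 = 1 := by
    refine ⟨(V * V) 0 0, ?_⟩
    have := congrFun (congrFun hVV 0) 0
    rwa [Matrix.smul_apply, smul_eq_mul, Matrix.one_apply_eq] at this
  have hc0f : rhoP ρ w c0 = c0 := by rw [hc0, map_add, map_mul, hsf, hβ]
  have hc1f : rhoP ρ w c1 = c1 := by
    have h1 := congrArg (rhoP ρ w) hc1
    rw [map_mul, map_one, hc0f] at h1
    calc rhoP ρ w c1 = (c0 * c1) * rhoP ρ w c1 := by rw [hc1, one_mul]
      _ = c1 * (c0 * rhoP ρ w c1) := by ring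
      _ = c1 := by rw [h1, mul_one]
  have hdd : W.det * W.det = c0 * c0 * c0 := by
    rw [← Matrix.det_mul, hWW, Matrix.det_smul, Matrix.det_one, Fintype.card_fin]
    ring
  set r := W.det * c1 with hr
  have hrr : r * r = c0 := by
    calc r * r = (W.det * W.det) * (c1 * c1) := by rw [hr]; ring
      _ = c0 * (c0 * c1) * (c0 * c1) := by rw [hdd]; ring
      _ = c0 := by rw [hc1]; ring
  have hrf : rhoP ρ w r = r := by rw [hr, map_mul, hWU.det, hc1f]
  have hprod : (W - r • (1 : Matrix (Fin 3) (Fin 3) (LP L w))) *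
      (W + r • (1 : Matrix (Fin 3) (Fin 3) (LP L w))) = 0 := by
    rw [sub_mul, mul_add, mul_add, hWW, smul_mul_assoc, mul_smul_comm, one_mul, mul_one,
      smul_mul_assoc, mul_smul_comm, one_mul, ← hrr]
    module
  have hp := congrArg (kap hw).mapMatrix hprod
  rw [map_mul, map_zero] at hp
  have hm1 := mem_ew_kapM (ρ := ρ) (lam := lam) hw (eqU_sub hWU (eqU_smul eqU_one hrf))
  rcases dq_domain H (ew_le w hm1) hp with h0 | h0
  · have h1 : W - r • (1 : Matrix (Fin 3) (Fin 3) (LP L w)) = 0 :=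
      kapM_injective hw hn (by rw [h0, map_zero])
    refine ⟨r + hh * α, by rw [map_add, hrf, hsf], ?_⟩
    rw [hXW, sub_eq_zero.1 h1, add_smul]
  · have h1 : W + r • (1 : Matrix (Fin 3) (Fin 3) (LP L w)) = 0 :=
      kapM_injective hw hn (by rw [h0, map_zero])
    have hnr : rhoP ρ w (-r) = -r := (map_neg (rhoP ρ w) r).trans (congrArg Neg.neg hrf)
    refine ⟨-r + hh * α, by rw [map_add, hnr, hsf], ?_⟩
    rw [hXW, eq_neg_of_add_eq_zero_left h1, add_smul, neg_smul]

end Vale.Agent.P011.E6I.H637
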