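import Vale.Agent.P011.E6I.H637.Rec1

/-!
Block E6I: an element `y` of `D ⊗ k(w)` with reduced norm one whose inverse has the conjugate
trace is conjugate to an element `q` with `q q' = 1` which commutes with an element of `D`.
-/

namespace Vale.Agent.P011.E6I.H637

open NumberField Matrix
open Vale.Agent.P011.MPQ Vale.Agent.P011.D4 Vale.Agent.P011.D4.Oct Vale.Agent.P011.E6
open Vale.Agent.P011.E6I

variable {k L : Type} [Field k] [NumberField k] [Field L] [NumberField L] [Algebra k L]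
  {ρ : L ≃ₐ[k] L} {lam : kˣ} {a b c : kˣ}

omit [NumberField k] [NumberField L] in
theorem u0_ne (t : L) : u0 L lam ≠ t • (1 : Matrix (Fin 3) (Fin 3) L) := by
  intro h
  have h1 := congrFun (congrFun h 1) 0
  have h2 := congrFun (congrFun h 0) 1
  have h3 := congrFun (congrFun h 0) 2
  have h4 := congrFun (congrFun h 2) 0
  simp [u0] at h1 h2 h3 h4

/-- The conclusion of the row, for the element `y`. -/
def Good (ρ : L ≃ₐ[k] L) (lam : kˣ) {a b : kˣ} (y : (MQ L a b)ˣ) : Prop :=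
  ∃ (V q : (MQ L a b)ˣ) (z : Matrix (Fin 3) (Fin 3) L), InD ρ lam (V : MQ L a b) ∧
    y = V * q * V⁻¹ ∧ InD0 ρ lam z ∧ (∀ t : L, z ≠ t • (1 : Matrix (Fin 3) (Fin 3) L)) ∧
    InD ρ lam (q : MQ L a b) ∧ (q : MQ L a b) * toMQ z = toMQ z * (q : MQ L a b) ∧
    (q : MQ L a b) * (q : MQ L a b).map star = 1

omit [NumberField k] [NumberField L] in
theorem rhoP_star {w : Qt a b} (x : LP L w) : rhoP ρ w (star x) = star (rhoP ρ w x) := by
  apply QuadraticAlgebra.ext
  · simp [rhoP]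
  · simp [rhoP]

omit [NumberField k] [NumberField L] in
theorem good_of_star {y : (MQ L a b)ˣ}
    {z : Matrix (Fin 3) (Fin 3) L} (hz : InD0 ρ lam z)
    (hzk : ∀ t : L, z ≠ t • (1 : Matrix (Fin 3) (Fin 3) L)) (hy : InD ρ lam (y : MQ L a b))
    (hyz : (y : MQ L a b) * toMQ z = toMQ z * (y : MQ L a b))
    (hy1 : (y : MQ L a b) * (y : MQ L a b).map star = 1) : Good ρ lam y := by
  refine ⟨1, y, z, ?_, by rw [one_mul, inv_one, mul_one], hz, hzk, hy, hyz, hy1⟩
  exact (dq ρ lam a b).one_mem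

/-- The case where `y` is a scalar. -/
theorem good_of_scalar {w : Qt a b} (hw : w.re = 0)
    {y : (MQ L a b)ˣ} (hy : InD ρ lam (y : MQ L a b)) {Y Z : Matrix (Fin 3) (Fin 3) (LP L w)}
    (hYy : (kap hw).mapMatrix Y = y) (hYZ : Y * Z = 1) (hTT : Z.trace = star Y.trace)
    {e : LP L w} (hYe : Y = e • (1 : Matrix (Fin 3) (Fin 3) (LP L w))) : Good ρ lam y := by
  have hee : e * star e = 1 := by
    have h1 : e • Z = 1 := by rw [← hYZ, hYe, smul_mul_assoc, one_mul]
    have h2 := congrArg Matrix.trace h1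
    rw [Matrix.trace_smul, hTT, hYe, Matrix.trace_smul, Matrix.trace_one, Fintype.card_fin,
      smul_eq_mul, smul_eq_mul, star_mul', star_natCast] at h2
    obtain ⟨u, hu⟩ : IsUnit ((3 : ℕ) : LP L w) := by
      rw [← map_natCast (algebraMap L (LP L w)) 3]
      exact (IsUnit.mk0 ((3 : ℕ) : L) (by norm_num)).map _
    rw [← hu] at h2
    have h3 : (e * star e) * (u : LP L w) = 1 * (u : LP L w) := by
      rw [one_mul, mul_assoc, h2]
    exact u.isUnit.mul_right_cancel h3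
  refine good_of_star inD0_u0 u0_ne hy ?_ ?_
  · rw [← hYy, ← kap_uP hw, ← map_mul, ← map_mul, hYe, mul_smul_comm, smul_mul_assoc, one_mul,
      mul_one]
  · rw [← hYy, ← kapM_star' hw, ← map_mul, hYe]
    have h1 : (e • (1 : Matrix (Fin 3) (Fin 3) (LP L w))).map star =
        star e • (1 : Matrix (Fin 3) (Fin 3) (LP L w)) := by
      apply Matrix.ext
      intro i j
      simp only [Matrix.map_apply, Matrix.smul_apply, smul_eq_mul, Matrix.one_apply, star_mul']
      split_ifs <;> simp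
    rw [h1, smul_mul_assoc, one_mul, smul_smul, hee, one_smul, map_one]

/-- An element of `D` over the ground field, which is not a scalar. -/
theorem exists_z0 (H : Hyp ρ lam a b c) {d : MQ L a b} (hd : d ∈ d0 ρ lam a b)
    (hds : ∀ s : k, d ≠ s • 1) : ∃ z : Matrix (Fin 3) (Fin 3) L, InD0 ρ lam z ∧
      (∀ t : L, z ≠ t • (1 : Matrix (Fin 3) (Fin 3) L)) ∧ d = toMQ z := by
  obtain ⟨z, hz, rfl⟩ := hd
  refine ⟨z, hz, ?_, rfl⟩
  rintro t rfl
  obtain ⟨s, rfl⟩ := exists_k_of_scalar H hz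
  exact hds s (toMQ_scalar s)

theorem comp_case (H : Hyp ρ lam a b c) {w v : Qt a b} (hw : w.re = 0) (hn : nrd w ≠ 0)
    (hv : v.re = 0) (hnv : nrd v ≠ 0) (hvw : w * v = -(v * w)) {y z d : MQ L a b}
    (hy : y ∈ ew ρ lam w) (hyz : y * z = 1) (hzy : z * y = 1) (hd : d ∈ d0 ρ lam a b)
    (hds : ∀ s : k, d ≠ s • 1) (hsum : y + z = d) :
    y * d = d * y ∧ (y ∈ d0 ρ lam a b ∨ y * bar v y = 1) := by
  have hcomm : y * d = d * y := by rw [← hsum, mul_add, add_mul, hyz, hzy]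
  refine ⟨hcomm, ?_⟩
  obtain ⟨z₀, hz₀, hzk, rfl⟩ := exists_z0 H hd hds
  obtain ⟨y₀, hy₀, y₁, hy₁, rfl⟩ := ew_comp' hw hn hy
  have hcc : y₀ * toMQ z₀ = toMQ z₀ * y₀ ∧ y₁ * toMQ z₀ = toMQ z₀ * y₁ := by
    have h1 : (y₀ * toMQ z₀ - toMQ z₀ * y₀) + (y₁ * toMQ z₀ - toMQ z₀ * y₁) * sc L w = 0 := by
      have h2 : y₁ * toMQ z₀ * sc L w = y₁ * sc L w * toMQ z₀ := by
        rw [mul_assoc, ← sc_comm, ← mul_assoc]
      rw [sub_mul, h2, mul_assoc (toMQ z₀) y₁]
      rw [add_mul, mul_add] at hcomm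
      linear_combination (norm := abel) hcomm
    have h2 := ew_ind hw hn ((d0 ρ lam a b).sub_mem ((d0 ρ lam a b).mul_mem hy₀ hd)
      ((d0 ρ lam a b).mul_mem hd hy₀)) ((d0 ρ lam a b).sub_mem ((d0 ρ lam a b).mul_mem hy₁ hd)
      ((d0 ρ lam a b).mul_mem hd hy₁)) h1
    exact ⟨sub_eq_zero.1 h2.1, sub_eq_zero.1 h2.2⟩
  have h01 := comm_d0 H hz₀ hzk hy₀ hy₁ hcc.1 hcc.2
  have hW := sc_sq (L := L) hw
  have hprod : (y₀ + y₁ * sc L w) * (y₀ + y₁ * sc L w) - (y₀ + y₁ * sc L w) * toMQ z₀ + 1 = 0 := by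
    have h1 : (y₀ + y₁ * sc L w) * toMQ z₀ = (y₀ + y₁ * sc L w) * (y₀ + y₁ * sc L w) + 1 := by
      rw [← hsum, mul_add (y₀ + y₁ * sc L w) (y₀ + y₁ * sc L w) z, hyz]
    rw [h1]
    abel
  have hexp : (y₀ + y₁ * sc L w) * (y₀ + y₁ * sc L w) - (y₀ + y₁ * sc L w) * toMQ z₀ + 1 =
      (y₀ * y₀ + (-nrd w) • (y₁ * y₁) - y₀ * toMQ z₀ + 1) +
        (y₁ * (y₀ + y₀ - toMQ z₀)) * sc L w := by
    have e1 : y₁ * sc L w * y₀ = y₁ * y₀ * sc L w := by
      rw [mul_assoc, sc_comm_d0 hy₀, ← mul_assoc]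
    have e2 : y₁ * sc L w * (y₁ * sc L w) = (-nrd w) • (y₁ * y₁) := by
      rw [mul_assoc, ← mul_assoc (sc L w), sc_comm_d0 hy₁, mul_assoc y₁, hW, ← mul_assoc,
        mul_smul_comm, mul_one]
    have e3 : y₁ * sc L w * toMQ z₀ = y₁ * toMQ z₀ * sc L w := by
      rw [mul_assoc, sc_comm, ← mul_assoc]
    rw [mul_add, add_mul, add_mul, add_mul, e1, e2, e3, ← mul_assoc y₀, h01, mul_sub, mul_add,
      sub_mul, add_mul]
    abel
  rw [hexp] at hprod
  have hmem1 : y₁ * (y₀ + y₀ - toMQ z₀) ∈ d0 ρ lam a b := (d0 ρ lam a b).mul_mem hy₁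
    ((d0 ρ lam a b).sub_mem ((d0 ρ lam a b).add_mem hy₀ hy₀) hd)
  have hmem0 : y₀ * y₀ + (-nrd w) • (y₁ * y₁) - y₀ * toMQ z₀ + 1 ∈ d0 ρ lam a b :=
    (d0 ρ lam a b).add_mem ((d0 ρ lam a b).sub_mem ((d0 ρ lam a b).add_mem
      ((d0 ρ lam a b).mul_mem hy₀ hy₀) ((d0 ρ lam a b).smul_mem ((d0 ρ lam a b).mul_mem hy₁ hy₁) _))
      ((d0 ρ lam a b).mul_mem hy₀ hd)) (d0 ρ lam a b).one_mem
  rcases dq_domain H (d0_le hy₁) (ew_ind hw hn hmem0 hmem1 hprod).2 with h0 | h0
  · left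
    rw [h0, zero_mul, add_zero]
    exact hy₀
  · right
    have hz : z = y₀ - y₁ * sc L w := by
      have h3 : toMQ z₀ = y₀ + y₀ := (sub_eq_zero.1 h0).symm
      rw [h3] at hsum
      linear_combination (norm := abel) hsum
    have hb : bar v (y₀ + y₁ * sc L w) = y₀ - y₁ * sc L w := by
      rw [bar_add, bar_mul hv hnv, bar_d0 hv hnv hy₀, bar_d0 hv hnv hy₁, bar_sc hv hnv hvw,
        mul_neg, sub_eq_add_neg]
    rw [hb, ← hz, hyz]

omit [NumberField k] [NumberField L] in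
theorem star_map_alg {w : Qt a b} (x : Matrix (Fin 3) (Fin 3) L) :
    star (x.map (algebraMap L (LP L w))).trace = (x.map (algebraMap L (LP L w))).trace ∧
      star (x.map (algebraMap L (LP L w))).det = (x.map (algebraMap L (LP L w))).det := by
  have hst : ∀ t : L, star (algebraMap L (LP L w) t) = algebraMap L (LP L w) t := by
    intro t
    apply QuadraticAlgebra.ext
    · simp
    · simp
  constructor
  · have h : (x.map (algebraMap L (LP L w))).trace = algebraMap L (LP L w) x.trace := by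
      simp [Matrix.trace, map_sum]
    rw [h, hst]
  · have h : (x.map (algebraMap L (LP L w))).det = algebraMap L (LP L w) x.det :=
      ((algebraMap L (LP L w)).map_det x).symm
    rw [h, hst]

omit [NumberField L] in
theorem map_star_ew {w v : Qt a b} (hw : w.re = 0) (hn : nrd w ≠ 0)
    (hv : v.re = 0) (hnv : nrd v ≠ 0) (hvw : w * v = -(v * w)) {x : MQ L a b}
    (hx : x ∈ ew ρ lam w) : x.map star = bar v x := by
  obtain ⟨M, rfl, -⟩ := lift_ew hw hn hx
  rw [← kapM_star' hw, kapM_star hw hv hnv hvw]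

/-- The impossible case: the conjugate of `y` belongs to `D`. -/
theorem not_d0 {w : Qt a b} (hw : w.re = 0) (hn : nrd w ≠ 0)
    {Y Z V V' : Matrix (Fin 3) (Fin 3) (LP L w)} (hYU : EqU ρ lam w Y) (H : Hyp ρ lam a b c)
    (hYZ : Y * Z = 1) (hTT : Z.trace = star Y.trace) (hdd : Y.det * star Y.det = 1)
    (hVV' : V * V' = 1) (hV'V : V' * V = 1) {x : Matrix (Fin 3) (Fin 3) L}
    (h : (kap hw).mapMatrix (V' * Y * V) = toMQ x) :
    ∃ r : k, (kap hw).mapMatrix Y + (kap hw).mapMatrix Z = r • (1 : MQ L a b) := by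
  have hx : V' * Y * V = x.map (algebraMap L (LP L w)) := by
    apply kapM_injective hw hn
    rw [h]
    apply Matrix.ext
    intro i j
    change algebraMap L _ (x i j) = kap hw (algebraMap L (LP L w) (x i j))
    rw [kap_apply, QuadraticAlgebra.algebraMap_re, QuadraticAlgebra.algebraMap_im, zero_smul,
      add_zero, Algebra.algebraMap_eq_smul_one]
  obtain ⟨h1, h2⟩ := star_map_alg (w := w) x
  rw [← hx, Matrix.trace_mul_comm, ← mul_assoc, hVV', one_mul] at h1
  have hdet : (V' * Y * V).det = Y.det := by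
    rw [Matrix.det_mul, Matrix.det_mul, mul_right_comm, ← Matrix.det_mul, hV'V, Matrix.det_one,
      one_mul]
  rw [← hx, hdet] at h2
  obtain ⟨n, hn0⟩ := exists_k (ρ := ρ) (fun _ => H.fix) hYU.det h2
  obtain ⟨t, ht0⟩ := exists_k (ρ := ρ) (fun _ => H.fix) hYU.trace h1
  have hnn : n * n = 1 := by
    rw [h2, hn0, ← map_mul, ← map_mul] at hdd
    apply (algebraMap k L).injective
    rw [map_one]
    apply (algebraMap L (LP L w)).injective
    rw [map_one]
    exact hdd
  have hch := cubicAt_char Y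
  rw [s2_eq hYZ, hTT, h1, cubicAt] at hch
  have hfac : (Y - Y.det • (1 : Matrix (Fin 3) (Fin 3) (LP L w))) *
      (Y * Y + (Y.det - Y.trace) • Y + 1) = 0 := by
    have e : (Y - Y.det • (1 : Matrix (Fin 3) (Fin 3) (LP L w))) *
        (Y * Y + (Y.det - Y.trace) • Y + 1) =
        (Y * Y * Y - Y.trace • (Y * Y) + (Y.det * Y.trace) • Y - Y.det • 1) +
          (1 - Y.det * Y.det) • Y := by
      simp only [sub_mul, mul_add, smul_mul_assoc, mul_smul_comm, one_mul, mul_one, mul_assoc]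
      module
    have h3 : Y.det * Y.det = 1 := by rw [h2] at hdd; exact hdd
    rw [e, hch, h3, sub_self, zero_smul, add_zero]
  have hp := congrArg (kap hw).mapMatrix hfac
  have e1 : (kap hw).mapMatrix ((Y.det - Y.trace) • Y) = (n - t) • (kap hw).mapMatrix Y := by
    rw [hn0, ht0, ← map_sub, ← map_sub, kapM_smul]
  rw [map_mul, map_zero, map_add, map_add, map_mul, map_one, e1, map_sub, hn0, kapM_smul,
    map_one] at hp
  have hyz : (kap hw).mapMatrix Y * (kap hw).mapMatrix Z = 1 := by rw [← map_mul, hYZ, map_one]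
  have hym := mem_ew_kapM (ρ := ρ) (lam := lam) hw hYU
  rcases dq_domain H ((dq ρ lam a b).sub_mem (ew_le w hym)
    ((dq ρ lam a b).smul_mem (dq ρ lam a b).one_mem n)) hp with h0 | h0
  · refine ⟨n + n, ?_⟩
    have h4 := sub_eq_zero.1 h0
    have h5 : (kap hw).mapMatrix Z = n • (1 : MQ L a b) := by
      calc (kap hw).mapMatrix Z = (n * n) • (kap hw).mapMatrix Z := by rw [hnn, one_smul]
        _ = n • ((n • (1 : MQ L a b)) * (kap hw).mapMatrix Z) := by
          rw [smul_mul_assoc, one_mul, smul_smul]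
        _ = n • (1 : MQ L a b) := by rw [← h4, hyz, h4]
    rw [h4, h5, add_smul]
  · refine ⟨t - n, ?_⟩
    have h4 := congrArg (· * (kap hw).mapMatrix Z) h0
    simp only [add_mul, smul_mul_assoc, one_mul, zero_mul] at h4
    rw [mul_assoc, hyz, mul_one] at h4
    linear_combination (norm := module) h4

theorem good_of_recip (H : Hyp ρ lam a b c) {w : Qt a b} (hw : w.re = 0) (hw0 : w ≠ 0)
    {y : (MQ L a b)ˣ}
    (hy : InD ρ lam (y : MQ L a b)) (hyw : (y : MQ L a b) * sc L w = sc L w * y)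
    (hyn : nu (y : MQ L a b) = 1)
    (ht : Matrix.trace ((y⁻¹ : (MQ L a b)ˣ) : MQ L a b) = star (Matrix.trace (y : MQ L a b))) :
    Good ρ lam y := by
  have hn : nrd w ≠ 0 := fun h => hw0 (H.anisoK w h)
  have hym : (y : MQ L a b) ∈ ew ρ lam w := ⟨hy, hyw⟩
  have hzm : ((y⁻¹ : (MQ L a b)ˣ) : MQ L a b) ∈ ew ρ lam w := by
    refine ⟨hy.inv H, ?_⟩
    rw [Units.inv_mul_eq_iff_eq_mul, ← mul_assoc, hyw, mul_assoc, Units.mul_inv, mul_one]
  obtain ⟨Y, Z, hYy, hZz, hYU, hZU, hYZ, hZY⟩ := exists_lift hw hn hym hzm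
    (Units.mul_inv y) (Units.inv_mul y)
  have hTT : Z.trace = star Y.trace := by
    apply kap_injective hw hn
    rw [kap_star, ← kap_trace, ← kap_trace, hYy, hZz, ht]
  have hdd : Y.det * star Y.det = 1 := det_star_of_nu H hw hn (by rw [hYy, hyn])
  have hZdet : Z.det = star Y.det := by
    have h1 : Y.det * Z.det = 1 := by rw [← Matrix.det_mul, hYZ, Matrix.det_one]
    calc Z.det = (Y.det * star Y.det) * Z.det := by rw [hdd, one_mul]
      _ = star Y.det * (Y.det * Z.det) := by ring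
      _ = star Y.det := by rw [h1, mul_one]
  -- the polynomial of `y + y⁻¹`
  have hU := eqU_add hYU hZU
  have hcub := cubic_recip hYZ hZY
  rw [hTT, hZdet] at hcub
  have hT := hYU.trace
  have hD := hYU.det
  set T := Y.trace with hTdef
  set D := Y.det with hDdef
  have hT' : rhoP ρ w (star T) = star T := by rw [rhoP_star, hT]
  have hD' : rhoP ρ w (star D) = star D := by rw [rhoP_star, hD]
  obtain ⟨t, ht0⟩ := exists_k (ρ := ρ) (fun _ => H.fix) (z := T + star T) (by rw [map_add, hT, hT'])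
    (by rw [star_add, star_star, add_comm])
  obtain ⟨s, hs0⟩ := exists_k (ρ := ρ) (fun _ => H.fix) (z := D * star T + star D * T + T * star T - 3)
    (by simp only [map_sub, map_add, map_mul, hT, hT', hD, hD', map_ofNat])
    (by simp only [star_sub, star_add, star_mul', star_star, star_ofNat]; ring)
  obtain ⟨n, hn0⟩ := exists_k (ρ := ρ) (fun _ => H.fix)
    (z := D + star D + D * star T ^ 2 + star D * T ^ 2 - 2 * T - 2 * star T)
    (by simp only [map_sub, map_add, map_mul, map_pow, hT, hT', hD, hD', map_ofNat])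
    (by simp only [star_sub, star_add, star_mul', star_pow, star_star, star_ofNat]; ring)
  rw [ht0, hs0, hn0] at hcub
  have hcubu := kapM_cubic hw hcub
  rw [map_add, hYy, hZz] at hcubu
  set u : MQ L a b := (y : MQ L a b) + ((y⁻¹ : (MQ L a b)ˣ) : MQ L a b) with hu
  have hum : u ∈ ew ρ lam w := (ew ρ lam w).add_mem hym hzm
  by_cases hroot : NoRoot t s n
  · obtain ⟨d, hd, hpd, V, hV, hV0, hVd⟩ := conj_ew H hroot hw hn hum hcubu
    obtain ⟨V', hV', hVV', hV'V⟩ := inv_ew H hV hV0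
    obtain ⟨v, hv, hnv, hvw⟩ := exists_anti H.anisoK hw
    have hds : ∀ r : k, d ≠ r • 1 := by
      rintro r rfl
      exact noRoot_ne hroot hpd
    have hyz' : (V' * (y : MQ L a b) * V) * (V' * ((y⁻¹ : (MQ L a b)ˣ) : MQ L a b) * V) = 1 := by
      rw [mul_assoc (V' * (y : MQ L a b)), ← mul_assoc V, ← mul_assoc V, hVV', one_mul,
        ← mul_assoc, mul_assoc V', Units.mul_inv, mul_one, hV'V]
    have hzy' : (V' * ((y⁻¹ : (MQ L a b)ˣ) : MQ L a b) * V) * (V' * (y : MQ L a b) * V) = 1 := by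
      rw [mul_assoc (V' * ((y⁻¹ : (MQ L a b)ˣ) : MQ L a b)), ← mul_assoc V, ← mul_assoc V, hVV',
        one_mul, ← mul_assoc, mul_assoc V', Units.inv_mul, mul_one, hV'V]
    have hsum : V' * (y : MQ L a b) * V + V' * ((y⁻¹ : (MQ L a b)ˣ) : MQ L a b) * V = d := by
      rw [← add_mul, ← mul_add, ← hu, mul_assoc, hVd, ← mul_assoc, hV'V, one_mul]
    have hy'm : V' * (y : MQ L a b) * V ∈ ew ρ lam w :=
      (ew ρ lam w).mul_mem ((ew ρ lam w).mul_mem hV' hym) hV
    obtain ⟨hcomm, hcase⟩ := comp_case H hw hn hv hnv hvw hy'm hyz' hzy' hd hds hsum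
    rcases hcase with h0 | h0
    · exfalso
      obtain ⟨x, -, hx⟩ := h0
      obtain ⟨Vl, Vl', hVl, hVl', -, -, h1, h2⟩ := exists_lift hw hn hV hV' hVV' hV'V
      obtain ⟨r, hr⟩ := not_d0 hw hn hYU H hYZ hTT hdd h1 h2 (x := x) (by
        rw [map_mul, map_mul, hVl, hVl', hYy, hx])
      rw [hYy, hZz] at hr
      rw [hu, hr] at hcubu
      exact noRoot_ne hroot hcubu
    · obtain ⟨z₀, hz₀, hzk, rfl⟩ := exists_z0 H hd hds
      let Vu : (MQ L a b)ˣ := ⟨V, V', hVV', hV'V⟩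
      refine ⟨Vu, Vu⁻¹ * y * Vu, z₀, ew_le w hV, by group, hz₀, hzk, ew_le w hy'm, hcomm, ?_⟩
      change (V' * (y : MQ L a b) * V) * (V' * (y : MQ L a b) * V).map star = 1
      rw [map_star_ew hw hn hv hnv hvw hy'm, h0]
  · simp only [NoRoot, not_forall, not_not] at hroot
    obtain ⟨r, hr⟩ := hroot
    have hfac : (u - r • (1 : MQ L a b)) *
        (u * u + (r - t) • u + (r * r - t * r + s) • (1 : MQ L a b)) = 0 := by
      have e : (u - r • (1 : MQ L a b)) *
          (u * u + (r - t) • u + (r * r - t * r + s) • (1 : MQ L a b)) =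
          cubicAt t s n u - (r * r * r - t * (r * r) + s * r - n) • (1 : MQ L a b) := by
        rw [cubicAt]
        simp only [sub_mul, mul_add, smul_mul_assoc, mul_smul_comm, one_mul, mul_one, mul_assoc]
        module
      rw [e, hcubu, hr, zero_smul, sub_zero]
    have hquad : ∃ q1 q0 : k, u * u = q1 • u + q0 • (1 : MQ L a b) := by
      rcases dq_domain H ((dq ρ lam a b).sub_mem (ew_le w hum)
        ((dq ρ lam a b).smul_mem (dq ρ lam a b).one_mem r)) hfac with h0 | h0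
      · refine ⟨r, 0, ?_⟩
        rw [zero_smul, add_zero]
        nth_rw 1 [sub_eq_zero.1 h0]
        rw [smul_mul_assoc, one_mul]
      · refine ⟨-(r - t), -(r * r - t * r + s), ?_⟩
        rw [neg_smul, neg_smul, ← sub_eq_add_neg, eq_sub_iff_add_eq, eq_neg_iff_add_eq_zero,
          ← h0]
        abel
    obtain ⟨q1, q0, hq⟩ := hquad
    have hUU : (Y + Z) * (Y + Z) = algebraMap L (LP L w) (algebraMap k L q1) • (Y + Z) +
        algebraMap L (LP L w) (algebraMap k L q0) • (1 : Matrix (Fin 3) (Fin 3) (LP L w)) := by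
      apply kapM_injective hw hn
      rw [map_mul, map_add _ (_ • _), kapM_smul, kapM_smul, map_add, hYy, hZz, map_one]
      exact hq
    have hfk : ∀ x : k, rhoP ρ w (algebraMap L (LP L w) (algebraMap k L x)) =
        algebraMap L (LP L w) (algebraMap k L x) := by
      intro x
      apply QuadraticAlgebra.ext
      · simp [rhoP]
      · simp [rhoP]
    obtain ⟨e, he, hYZe⟩ := quad_P H hw hn hU (hfk q1) (hfk q0) hUU
    have hYY : Y * Y = e • Y + (-1 : LP L w) • (1 : Matrix (Fin 3) (Fin 3) (LP L w)) := by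
      have h1 : Y * (Y + Z) = e • Y := by rw [hYZe, mul_smul_comm, mul_one]
      rw [mul_add, hYZ] at h1
      rw [neg_smul, one_smul, ← h1]
      abel
    obtain ⟨f, hf, hYf⟩ := quad_P H hw hn hYU he
      ((map_neg (rhoP ρ w) 1).trans (congrArg Neg.neg (map_one _))) hYY
    exact good_of_scalar hw hy hYy hYZ hTT hYf

end Vale.Agent.P011.E6I.H637
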