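import Vale.Agent.P011.E6I.H637.Rec2
import Vale.Agent.P011.E6I.Basic
import Vale.Agent.P011.E6I.Fx

/-!
Block E6I: the elements of `D ⊗ k(w)` with reduced norm one whose inverse has the conjugate trace.
-/

namespace Vale.Agent.P011.E6I

open NumberField Matrix
open Vale.Agent.P011.MPQ Vale.Agent.P011.D4 Vale.Agent.P011.D4.Oct Vale.Agent.P011.E6

variable {k L : Type} [Field k] [NumberField k] [Field L] [NumberField L] [Algebra k L]
  {ρ : L ≃ₐ[k] L} {lam : kˣ} {a b c : kˣ}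

/-- The norm of a conjugate. -/
theorem H637.nu_conj (H : Hyp ρ lam a b c) (V q : (MQ L a b)ˣ) :
    nu ((V * q * V⁻¹ : (MQ L a b)ˣ) : MQ L a b) = nu (q : MQ L a b) := by
  rw [Units.val_mul, Units.val_mul, nu_mul H.aniso, nu_mul H.aniso, mul_right_comm,
    ← nu_mul H.aniso, Units.mul_inv, nu_one, one_mul]

theorem recip (H : Hyp ρ lam a b c) (w : Qt a b) (hw : w.re = 0) (hw0 : w ≠ 0)
    {y : (MQ L a b)ˣ}
    (hy : InD ρ lam (y : MQ L a b)) (hyw : (y : MQ L a b) * sc L w = sc L w * y)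
    (hyn : nu (y : MQ L a b) = 1)
    (ht : Matrix.trace ((y⁻¹ : (MQ L a b)ˣ) : MQ L a b) = star (Matrix.trace (y : MQ L a b))) :
    InRes ρ lam c y := by
  obtain ⟨V, q, z, hV, rfl, hz, hzk, hq, hqz, hq1⟩ := H637.good_of_recip H hw hw0 hy hyw hyn ht
  refine InRes.conj H hV ?_ hq (by rw [← hyn, H637.nu_conj H])
  exact cubic_Res H hz hzk hq hqz fun S _ hS => H637.fix_of_star H hz hzk hqz hq1 hS

end Vale.Agent.P011.E6I
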