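import Vale.Agent.P011.E6I.H637.Rec2
import Vale.Agent.P011.E6I.Basic
import Vale.Agent.P011.E6I.H64.InResD
import Vale.Agent.P011.E6I.H369.QF

/-!
Block E6I: the elements of `D ⊗ k(w)` of reduced norm one.
-/

namespace Vale.Agent.P011.E6I

open NumberField Matrix
open Vale.Agent.P011.MPQ Vale.Agent.P011.D4 Vale.Agent.P011.D4.Oct Vale.Agent.P011.E6

variable {k L : Type} [Field k] [NumberField k] [Field L] [NumberField L] [Algebra k L]
  {ρ : L ≃ₐ[k] L} {lam : kˣ} {a b c : kˣ}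

namespace H637

omit [NumberField k] [NumberField L] in
theorem det_inD0 {z : Matrix (Fin 3) (Fin 3) L} (hz : InD0 ρ lam z) : ρ z.det = z.det := by
  have h : z = u0 L lam * z.map ρ * w0 L lam := by
    have h1 : z * u0 L lam = u0 L lam * z.map ρ := hz
    rw [← h1, mul_assoc, u0_mul_w0, mul_one]
  have e : z.det = (z.map ρ).det := by
    conv_lhs => rw [h]
    rw [Matrix.det_mul, Matrix.det_mul, mul_right_comm, ← Matrix.det_mul, u0_mul_w0,
      Matrix.det_one, one_mul]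
  exact ((RingHom.map_det (ρ : L →+* L) z).trans e.symm)

omit [NumberField k] [NumberField L] in
theorem inD0_smul {x : Matrix (Fin 3) (Fin 3) L} (hx : InD0 ρ lam x) (t : k) :
    InD0 ρ lam (algebraMap k L t • x) := by
  have h := inD0_mul (inD0_k (ρ := ρ) (lam := lam) t) hx
  rwa [smul_mul_assoc, one_mul] at h

theorem inRes_split (H : Hyp ρ lam a b c) {z : Matrix (Fin 3) (Fin 3) L} (hz : InD0 ρ lam z)
    (hzk : ∀ t : L, z ≠ t • (1 : Matrix (Fin 3) (Fin 3) L)) {h : (MQ L a b)ˣ}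
    (hn : nu (h : MQ L a b) = 1) {l : Matrix (Fin 3) (Fin 3) L} (hl : InD0 ρ lam l)
    {q : MQ L a b} (hq : q ∈ dq ρ lam a b) (hqs : q.map star ∈ dq ρ lam a b)
    (hqz : q * toMQ z = toMQ z * q) (hh : (h : MQ L a b) = toMQ l * q) :
    InRes ρ lam c h := by
  obtain ⟨z', s, -, htr, hd, hzz⟩ := exists_shift H hz hzk
  have hqz' : q * tm (up L a) (up L b) z' = tm (up L a) (up L b) z' * q := by
    change q * toMQ z' = toMQ z' * q
    rw [hzz, toMQ_add, mul_add, add_mul, toMQ_smul, toMQ_one, mul_smul_comm, smul_mul_assoc,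
      mul_one, one_mul] at hqz
    exact add_right_cancel hqz
  have hqn : q * q.map star = toMQ (nq q) := mul_star_nq htr hd hqz'
  have hnu : nu q = (nq q).det := nu_eq_det H.aniso htr hd hqz'
  have hnD : InD0 ρ lam (nq q) := by
    rw [← inD_toMQ (a := a) (b := b), ← hqn]
    exact (dq ρ lam a b).mul_mem hq hqs
  have hcomm : nq q * z = z * nq q := by
    rw [hzz, mul_add, add_mul, nq_comm hqz', mul_smul_comm, smul_mul_assoc, mul_one, one_mul]
  have hnorm : l.det ^ 2 * (nq q).det = 1 := by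
    rw [← hn, hh, nu_mul H.aniso, hnu]
    congr 1
    exact (nu_tm (a := up L a) (b := up L b) l).symm
  have hl0 : l.det ≠ 0 := by
    intro h0
    rw [h0] at hnorm
    simp at hnorm
  obtain ⟨e, he⟩ := H.fix (det_inD0 hl)
  have he0 : algebraMap k L e ≠ 0 := by rw [he]; exact hl0
  have hnq0 : (toMQ (nq q) : MQ L a b) ≠ 0 := by
    intro h0
    have h1 := toMQ_eq_zero h0
    rw [h1] at hnorm
    simp at hnorm
  obtain ⟨_, ⟨n', hn', rfl⟩, hnn1, hnn2⟩ := inv_d0 H (toMQ_mem hnD) hnq0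
  have hnn1' : nq q * n' = 1 := by
    apply toMQ_injective (k := k) (a := a) (b := b)
    rw [toMQ_mul, hnn1, toMQ_one]
  have hnn2' : n' * nq q = 1 := by
    apply toMQ_injective (k := k) (a := a) (b := b)
    rw [toMQ_mul, hnn2, toMQ_one]
  set g : Matrix (Fin 3) (Fin 3) L := algebraMap k L e⁻¹ • (l * n') with hg
  have hgD : InD0 ρ lam g := inD0_smul (inD0_mul hl hn') _
  have hgdet : g.det = 1 := by
    have h1 : n'.det * (nq q).det = 1 := by rw [← Matrix.det_mul, hnn2', Matrix.det_one]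
    have h2 : (nq q).det ≠ 0 := right_ne_zero_of_mul_eq_one h1
    rw [hg, Matrix.det_smul, Matrix.det_mul, Fintype.card_fin, map_inv₀, he]
    have h3 : n'.det = l.det ^ 2 := by
      apply mul_right_cancel₀ h2
      rw [h1, hnorm]
    rw [h3]
    field_simp
  have hgu : IsUnit g := (Matrix.isUnit_iff_isUnit_det g).2 (by rw [hgdet]; exact isUnit_one)
  obtain ⟨gu, hgu⟩ := hgu
  let gm : (MQ L a b)ˣ := ⟨toMQ (gu : Matrix (Fin 3) (Fin 3) L),
    toMQ ((gu⁻¹ : (Matrix (Fin 3) (Fin 3) L)ˣ) : Matrix (Fin 3) (Fin 3) L),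
    by rw [← toMQ_mul, Units.mul_inv, toMQ_one], by rw [← toMQ_mul, Units.inv_mul, toMQ_one]⟩
  have hgm : (gm : MQ L a b) = toMQ (gu : Matrix (Fin 3) (Fin 3) L) := rfl
  have hgmD : InD ρ lam (gm : MQ L a b) := by
    rw [hgm, hgu]
    exact inD_toMQ.2 hgD
  have hgmn : nu (gm : MQ L a b) = 1 := by
    rw [hgm, hgu]
    refine (nu_tm (a := up L a) (b := up L b) g).trans ?_
    rw [hgdet, one_pow]
  have hhD : InD ρ lam (h : MQ L a b) := by
    rw [hh]
    exact (dq ρ lam a b).mul_mem (inD_toMQ.2 hl) hq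
  -- the second factor
  set q2 : (MQ L a b)ˣ := gm⁻¹ * h with hq2
  have hq2v : (q2 : MQ L a b) = algebraMap k L e • (toMQ (nq q) * q) := by
    rw [hq2, Units.val_mul, Units.inv_mul_eq_iff_eq_mul, hgm, hgu, hg, toMQ_smul, toMQ_mul,
      smul_mul_smul_comm, ← map_mul, inv_mul_cancel₀, map_one, one_smul, ← mul_assoc,
      mul_assoc (toMQ l), hnn2, mul_one, hh]
    intro h0
    exact he0 (by rw [h0, map_zero])
  have hq2D : InD ρ lam (q2 : MQ L a b) := by
    rw [hq2, Units.val_mul]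
    exact (dq ρ lam a b).mul_mem (hgmD.inv H) hhD
  have hq2n : nu (q2 : MQ L a b) = 1 := by
    have h1 : nu (gm : MQ L a b) * nu (q2 : MQ L a b) = nu (h : MQ L a b) := by
      rw [← nu_mul H.aniso, ← Units.val_mul, hq2, mul_inv_cancel_left]
    rwa [hgmn, one_mul, hn] at h1
  have hq2z : (q2 : MQ L a b) * toMQ z = toMQ z * (q2 : MQ L a b) := by
    rw [hq2v, smul_mul_assoc, mul_smul_comm, mul_assoc, hqz, ← mul_assoc, ← toMQ_mul, hcomm,
      toMQ_mul, mul_assoc]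
  have e1 : h = gm * q2 := by rw [hq2, mul_inv_cancel_left]
  rw [e1]
  exact InRes.mul H hgmD hgmn hq2D hq2n
    (inRes_D H (z := gu) (by rw [hgu]; exact hgD) hgm hgmn)
    (inRes_QF H hz hzk hq2D hq2z hq2n)

end H637

/-- (b) -/
theorem inRes_DP (H : Hyp ρ lam a b c) (w : Qt a b) (hw : w.re = 0) (hw0 : w ≠ 0)
    {h : (MQ L a b)ˣ}
    (hh : InD ρ lam (h : MQ L a b)) (hhw : (h : MQ L a b) * sc L w = sc L w * h)
    (hn : nu (h : MQ L a b) = 1) : InRes ρ lam c h := by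
  have hnw : nrd w ≠ 0 := fun h => hw0 (H.anisoK w h)
  obtain ⟨v, hv, hnv, hvw⟩ := exists_anti H.anisoK hw
  have hqs : ∀ q ∈ ew ρ lam w, q.map star ∈ dq ρ lam a b := by
    intro q hq
    rw [H637.map_star_ew hw hnw hv hnv hvw hq]
    exact ew_le w (bar_mem hv hnv hvw hq)
  obtain ⟨h₀, hh₀, h₁, hh₁, he⟩ := ew_comp' hw hnw (m := (h : MQ L a b)) ⟨hh, hhw⟩
  by_cases h00 : h₀ = 0
  · obtain ⟨l, hl, rfl⟩ := hh₁
    refine H637.inRes_split H inD0_u0 H637.u0_ne hn hl (ew_le w (sc_self_mem w))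
      (hqs _ (sc_self_mem w)) (sc_comm _ _) ?_
    rw [he, h00, zero_add]
  · obtain ⟨h', hh', h1, h2⟩ := inv_d0 H hh₀ h00
    have hβ : h' * h₁ ∈ d0 ρ lam a b := (d0 ρ lam a b).mul_mem hh' hh₁
    have hqm : 1 + h' * h₁ * sc L w ∈ ew ρ lam w := (ew ρ lam w).add_mem (ew ρ lam w).one_mem
      ((ew ρ lam w).mul_mem (d0_le_ew w hβ) (sc_self_mem w))
    have he' : (h : MQ L a b) = h₀ * (1 + h' * h₁ * sc L w) := by
      rw [he, mul_add, mul_one, ← mul_assoc, ← mul_assoc, h1, one_mul]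
    obtain ⟨l, hl, rfl⟩ := hh₀
    by_cases hs : ∀ s : k, h' * h₁ ≠ s • 1
    · obtain ⟨z, hz, hzk, hβz⟩ := H637.exists_z0 H hβ hs
      refine H637.inRes_split H hz hzk hn hl (ew_le w hqm) (hqs _ hqm) ?_ he'
      rw [hβz, add_mul, mul_add, one_mul, mul_one, mul_assoc, sc_comm, ← mul_assoc, mul_assoc]
    · push Not at hs
      obtain ⟨s, hs⟩ := hs
      refine H637.inRes_split H inD0_u0 H637.u0_ne hn hl (ew_le w hqm) (hqs _ hqm) ?_ he'
      rw [hs, add_mul, mul_add, one_mul, mul_one, smul_mul_assoc, one_mul, smul_mul_assoc,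
        mul_smul_comm, sc_comm]

end Vale.Agent.P011.E6I
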