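import Vale.Agent.P011.E6I.H637.RowC0

/-!
Block E6I: the elements of `D ⊗ Q` of reduced norm one.
-/

namespace Vale.Agent.P011.E6I

open NumberField Matrix
open Vale.Agent.P011.MPQ Vale.Agent.P011.D4 Vale.Agent.P011.D4.Oct Vale.Agent.P011.E6

variable {k L : Type} [Field k] [NumberField k] [Field L] [NumberField L] [Algebra k L]
  {ρ : L ≃ₐ[k] L} {lam : kˣ} {a b c : kˣ}

namespace H637

/-- The root case: a consequence of the theorem of Hilbert 90. -/
theorem exists_twist_root (H : Hyp ρ lam a b c) {w v : Qt a b} (hw : w.re = 0) (hn : nrd w ≠ 0)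
    (hv : v.re = 0) (hnv : nrd v ≠ 0) (hvw : w * v = -(v * w)) {x : MQ L a b}
    (hx : x ∈ ew ρ lam w) (hx0 : x ≠ 0) {q1 q0 : k}
    (hq : (x * bar v x) * (x * bar v x) = q1 • (x * bar v x) + q0 • (1 : MQ L a b)) :
    ∃ Y ∈ ew ρ lam w, Y ≠ 0 ∧ ∃ x' ∈ ew ρ lam w, ∃ z₀ : Matrix (Fin 3) (Fin 3) L,
      InD0 ρ lam z₀ ∧ (∀ t : L, z₀ ≠ t • (1 : Matrix (Fin 3) (Fin 3) L)) ∧
      x' * toMQ z₀ = toMQ z₀ * x' ∧ x * bar v Y = Y * x' := by
  obtain ⟨x1, hx1, h01, h10⟩ := inv_ew H hx hx0
  obtain ⟨Z, N, rfl, hN, hZU, hNU, hZN, hNZ⟩ := exists_lift hw hn hx hx1 h01 h10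
  rw [← kapM_star hw hv hnv hvw, ← map_mul] at hq
  have hss : ∀ M : Matrix (Fin 3) (Fin 3) (LP L w), (M.map star).map star = M := by
    intro M
    apply Matrix.ext
    intro i j
    exact star_star _
  have hZsU : EqU ρ lam w (Z.map star) := by
    obtain ⟨M', hM', hM'2⟩ := lift_ew hw hn (bar_mem hv hnv hvw hx)
    have hMM : M' = Z.map star := by
      apply kapM_injective hw hn
      rw [hM', kapM_star hw hv hnv hvw]
    rwa [← hMM]
  have hUU : EqU ρ lam w (Z * Z.map star) := hZU.mul hZsU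
  have hfk : ∀ x : k, rhoP ρ w (algebraMap L (LP L w) (algebraMap k L x)) =
      algebraMap L (LP L w) (algebraMap k L x) := by
    intro x
    apply QuadraticAlgebra.ext
    · simp [rhoP]
    · simp [rhoP]
  have hq' : (Z * Z.map star) * (Z * Z.map star) =
      algebraMap L (LP L w) (algebraMap k L q1) • (Z * Z.map star) +
        algebraMap L (LP L w) (algebraMap k L q0) • (1 : Matrix (Fin 3) (Fin 3) (LP L w)) := by
    apply kapM_injective hw hn
    rw [map_mul _ (Z * Z.map star) (Z * Z.map star), map_add _ (_ • _), kapM_smul, kapM_smul,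
      map_one]
    exact hq
  obtain ⟨e, he, hUe⟩ := quad_P H hw hn hUU (hfk q1) (hfk q0) hq'
  -- `e` is fixed by the conjugation
  have hNs : Z.map star * N.map star = 1 := by
    rw [← map_star_mul, hZN]
    apply Matrix.ext
    intro i j
    rw [Matrix.map_apply, Matrix.one_apply]
    split_ifs <;> simp
  have he1 : e • (N.map star * N) = 1 := by
    calc e • (N.map star * N) = (Z * Z.map star) * (N.map star * N) := by
          rw [hUe, smul_mul_assoc, one_mul]
      _ = Z * ((Z.map star * N.map star) * N) := by simp only [mul_assoc]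
      _ = 1 := by rw [hNs, one_mul, hZN]
  obtain ⟨e', he'⟩ : ∃ e' : LP L w, e * e' = 1 := by
    refine ⟨(N.map star * N) 0 0, ?_⟩
    have := congrFun (congrFun he1 0) 0
    rwa [Matrix.smul_apply, smul_eq_mul, Matrix.one_apply_eq] at this
  have hes : star e = e := by
    have h1 : Z.map star * Z = star e • (1 : Matrix (Fin 3) (Fin 3) (LP L w)) := by
      have h2 := congrArg (fun M => M.map star) hUe
      simp only [map_star_mul, hss] at h2
      rw [h2]
      apply Matrix.ext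
      intro i j
      simp only [Matrix.map_apply, Matrix.smul_apply, smul_eq_mul, Matrix.one_apply, star_mul']
      split_ifs <;> simp
    have h2 : star e • Z = e • Z := by
      calc star e • Z = Z * (Z.map star * Z) := by rw [h1, mul_smul_comm, mul_one]
        _ = (Z * Z.map star) * Z := by rw [mul_assoc]
        _ = e • Z := by rw [hUe, smul_mul_assoc, one_mul]
    have h3 := congrArg (· * N) h2
    simp only [smul_mul_assoc, hZN] at h3
    have := congrFun (congrFun h3 0) 0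
    rwa [Matrix.smul_apply, Matrix.smul_apply, smul_eq_mul, smul_eq_mul, Matrix.one_apply_eq,
      mul_one, mul_one] at this
  have hinv : ∀ f f₁ f₂ : LP L w, f * f₁ = 1 → f * f₂ = 1 → f₁ = f₂ := by
    intro f f₁ f₂ h1 h2
    calc f₁ = (f * f₂) * f₁ := by rw [h2, one_mul]
      _ = (f * f₁) * f₂ := by ring
      _ = f₂ := by rw [h1, one_mul]
  have he's : star e' = e' := by
    apply hinv e _ _ _ he'
    have h1 := congrArg star he'
    rwa [star_mul', star_one, hes] at h1
  have he'r : rhoP ρ w e' = e' := by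
    apply hinv e _ _ _ he'
    have h1 := congrArg (rhoP ρ w) he'
    rwa [map_mul, map_one, he] at h1
  have hπ : Z.det * star Z.det = e * e * e := by
    rw [← det_map_star, ← Matrix.det_mul, hUe, Matrix.det_smul, Matrix.det_one, Fintype.card_fin]
    ring
  set p1 := Z.det * e' with hp1
  have hp1r : rhoP ρ w p1 = p1 := by rw [hp1, map_mul, hZU.det, he'r]
  have hpp : p1 * star p1 = e := by
    calc p1 * star p1 = (Z.det * star Z.det) * e' * e' := by
          rw [hp1, star_mul', he's]; ring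
      _ = e * (e * e') * (e * e') := by rw [hπ]; ring
      _ = e := by rw [he', mul_one, mul_one]
  set p1' := star p1 * e' with hp1'
  have hp1'r : rhoP ρ w p1' = p1' := by rw [hp1', map_mul, rhoP_star, hp1r, he'r]
  have hpp' : p1 * p1' = 1 := by rw [hp1', ← mul_assoc, hpp, he']
  have hp's : p1' * star p1' = e' := by
    have h1 : star p1' = p1 * e' := by rw [hp1', star_mul' (star p1) e', star_star p1, he's]
    calc p1' * star p1' = (p1 * star p1) * e' * e' := by
          rw [h1, hp1']; ring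
      _ = e' := by rw [hpp, he', one_mul]
  set Z1 := p1' • Z with hZ1
  have hZ1U : EqU ρ lam w Z1 := eqU_smul hZU hp1'r
  have hsm : ∀ (f : LP L w) (M : Matrix (Fin 3) (Fin 3) (LP L w)),
      (f • M).map star = star f • M.map star := by
    intro f M
    apply Matrix.ext
    intro i j
    simp only [Matrix.map_apply, Matrix.smul_apply, smul_eq_mul, star_mul']
  have hZ1s : Z1 * Z1.map star = 1 := by
    rw [hZ1, hsm, smul_mul_smul_comm, hUe, smul_smul, hp's, mul_comm, he', one_smul]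
  have hone : (1 : Matrix (Fin 3) (Fin 3) (LP L w)).map star = 1 := by
    apply Matrix.ext
    intro i j
    rw [Matrix.map_apply, Matrix.one_apply]
    split_ifs <;> simp
  -- Hilbert 90
  obtain ⟨Y, hYU, hY0, hY⟩ : ∃ Y, EqU ρ lam w Y ∧ Y ≠ 0 ∧ Z1 * Y.map star = Y := by
    by_cases h0 : 1 + Z1 = 0
    · have hZm : Z1 = -1 := eq_neg_of_add_eq_zero_right h0
      have hwr : rhoP ρ w (wP L w) = wP L w := by
        apply QuadraticAlgebra.ext
        · exact map_zero ρ
        · exact map_one ρ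
      have hws : star (wP L w) = -wP L w := by
        apply QuadraticAlgebra.ext
        · simp [wP]
        · simp [wP]
      refine ⟨wP L w • 1, eqU_smul eqU_one hwr, ?_, ?_⟩
      · intro h
        have h1 := congrFun (congrFun h 0) 0
        rw [Matrix.smul_apply, Matrix.one_apply_eq, smul_eq_mul, mul_one] at h1
        have h2 := congrArg QuadraticAlgebra.im h1
        simp [wP] at h2
      · rw [hZm, hsm, hone, hws, neg_one_mul]
        module
    · refine ⟨1 + Z1, eqU_add eqU_one hZ1U, h0, ?_⟩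
      have h1 : (1 + Z1).map star = 1 + Z1.map star := by
        conv_rhs => rw [← hone]
        apply Matrix.ext
        intro i j
        simp only [Matrix.map_apply, Matrix.add_apply, star_add]
      rw [h1, mul_add, mul_one, hZ1s, add_comm]
  refine ⟨_, mem_ew_kapM hw hYU, ?_, _, mem_ew_kapM hw (eqU_smul eqU_one hp1r), u0 L lam,
    inD0_u0, u0_ne, ?_, ?_⟩
  · intro h
    exact hY0 (kapM_injective hw hn (by rw [h, map_zero]))
  · rw [← kap_uP hw, ← map_mul, ← map_mul, mul_smul_comm, smul_mul_assoc, one_mul, mul_one]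
  · rw [← kapM_star hw hv hnv hvw, ← map_mul, ← map_mul, mul_smul_comm, mul_one]
    congr 1
    calc Z * Y.map star = (p1 * p1') • (Z * Y.map star) := by rw [hpp', one_smul]
      _ = p1 • (Z1 * Y.map star) := by rw [hZ1, smul_mul_assoc, smul_smul]
      _ = p1 • Y := by rw [hY]

/-- Conjugation of `x` with the twist by the conjugation of `k(w)`. -/
theorem exists_twist' (H : Hyp ρ lam a b c) {w v : Qt a b} (hw : w.re = 0) (hn : nrd w ≠ 0)
    (hv : v.re = 0) (hnv : nrd v ≠ 0) (hvw : w * v = -(v * w)) {x : MQ L a b}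
    (hx : x ∈ ew ρ lam w) :
    ∃ Y ∈ ew ρ lam w, Y ≠ 0 ∧ ∃ x' ∈ ew ρ lam w, ∃ z₀ : Matrix (Fin 3) (Fin 3) L,
      InD0 ρ lam z₀ ∧ (∀ t : L, z₀ ≠ t • (1 : Matrix (Fin 3) (Fin 3) L)) ∧
      x' * toMQ z₀ = toMQ z₀ * x' ∧ x * bar v Y = Y * x' := by
  by_cases hx0 : x = 0
  · refine ⟨1, (ew ρ lam w).one_mem, one_ne_zero, 0, (ew ρ lam w).zero_mem, u0 L lam, inD0_u0,
      u0_ne, by rw [zero_mul, mul_zero], by rw [hx0, zero_mul, mul_zero]⟩
  obtain ⟨t, s, n, hcub⟩ := exists_cubic_mul_bar (fun _ => H.fix) hw hn hv hnv hvw hx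
  have hum : x * bar v x ∈ ew ρ lam w := (ew ρ lam w).mul_mem hx (bar_mem hv hnv hvw hx)
  by_cases hroot : NoRoot t s n
  · obtain ⟨d, hd, hpd, Y, hY, hY0, hYd⟩ := conj_ew H hroot hw hn hum hcub
    obtain ⟨Y', hY', hYY', hY'Y⟩ := inv_ew H hY hY0
    have hds : ∀ r : k, d ≠ r • 1 := by
      rintro r rfl
      exact noRoot_ne hroot hpd
    obtain ⟨z₀, hz₀, hzk, rfl⟩ := exists_z0 H hd hds
    have hYb := bar_mem hv hnv hvw hY
    set x' := Y' * (x * bar v Y) with hx'
    have hx'm : x' ∈ ew ρ lam w := (ew ρ lam w).mul_mem hY' ((ew ρ lam w).mul_mem hx hYb)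
    have h1 : x' * bar v x' = toMQ z₀ := by
      rw [hx', bar_mul hv hnv, bar_mul hv hnv, bar_bar hv hnv]
      calc Y' * (x * bar v Y) * (bar v Y' * (bar v x * Y))
          = Y' * (x * (bar v Y * bar v Y') * bar v x * Y) := by simp only [mul_assoc]
        _ = Y' * (x * bar v x * Y) := by
          rw [← bar_mul hv hnv, hYY', bar_d0 hv hnv (d0 ρ lam a b).one_mem, mul_one]
        _ = toMQ z₀ := by rw [hYd, ← mul_assoc, hY'Y, one_mul]
    have h2 : bar v x' * x' = toMQ z₀ := by
      have h3 := congrArg (bar v) h1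
      rwa [bar_mul hv hnv, bar_bar hv hnv, bar_d0 hv hnv hd] at h3
    refine ⟨Y, hY, hY0, x', hx'm, z₀, hz₀, hzk, ?_, ?_⟩
    · calc x' * toMQ z₀ = x' * (bar v x' * x') := by rw [h2]
        _ = (x' * bar v x') * x' := (mul_assoc _ _ _).symm
        _ = toMQ z₀ * x' := by rw [h1]
    · rw [hx', ← mul_assoc, hYY', one_mul]
  · simp only [NoRoot, not_forall, not_not] at hroot
    obtain ⟨r, hr⟩ := hroot
    set u := x * bar v x with hu
    have hfac : (u - r • (1 : MQ L a b)) *
        (u * u + (r - t) • u + (r * r - t * r + s) • (1 : MQ L a b)) = 0 := by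
      have e : (u - r • (1 : MQ L a b)) *
          (u * u + (r - t) • u + (r * r - t * r + s) • (1 : MQ L a b)) =
          cubicAt t s n u - (r * r * r - t * (r * r) + s * r - n) • (1 : MQ L a b) := by
        rw [cubicAt]
        simp only [sub_mul, mul_add, smul_mul_assoc, mul_smul_comm, one_mul, mul_one, mul_assoc]
        module
      rw [e, hcub, hr, zero_smul, sub_zero]
    have hquad : ∃ q1 q0 : k, u * u = q1 • u + q0 • (1 : MQ L a b) := by
      rcases dq_domain H ((dq ρ lam a b).sub_mem (ew_le w hum)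
        ((dq ρ lam a b).smul_mem (dq ρ lam a b).one_mem r)) hfac with h0 | h0
      · refine ⟨r, 0, ?_⟩
        rw [zero_smul, add_zero]
        nth_rw 1 [sub_eq_zero.1 h0]
        rw [smul_mul_assoc, one_mul]
      · refine ⟨-(r - t), -(r * r - t * r + s), ?_⟩
        rw [neg_smul, neg_smul, ← sub_eq_add_neg, eq_sub_iff_add_eq, eq_neg_iff_add_eq_zero,
          ← h0]
        abel
    obtain ⟨q1, q0, hq⟩ := hquad
    exact exists_twist_root H hw hn hv hnv hvw hx hx0 hq

end H637

/-- (c) -/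
theorem inRes_DQ (H : Hyp ρ lam a b c) {x : (MQ L a b)ˣ} (hx : InD ρ lam (x : MQ L a b))
    (hn : nu (x : MQ L a b) = 1) : InRes ρ lam c x := by
  obtain ⟨w, hw, hw0⟩ : ∃ w : Qt a b, w.re = 0 ∧ w ≠ 0 := by
    refine ⟨⟨0, 1, 0, 0⟩, rfl, fun h => ?_⟩
    have := congrArg QuaternionAlgebra.imI h
    simp at this
  have hnw : nrd w ≠ 0 := fun h => hw0 (H.anisoK w h)
  obtain ⟨v, hv, hnv, hvw⟩ := exists_anti H.anisoK hw
  obtain ⟨x₀, hx₀, x₁, hx₁, he⟩ := dq_comp hv hnv hw hnw hvw (x := (x : MQ L a b)) hx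
  by_cases h00 : x₀ = 0
  · refine H637.inRes_c0 H hw hw0 hn hx₁ inD0_u0 H637.u0_ne (sc_mem v) (sc_comm _ _) ?_
    rw [he, h00, zero_add]
  · obtain ⟨x', hx', h1, h2⟩ := inv_ew H hx₀ h00
    obtain ⟨Y, hY, hY0, ζ, hζ, z, hz, hzk, hζz, hYζ⟩ := H637.exists_twist' H hw hnw hv hnv hvw
      ((ew ρ lam w).mul_mem hx' hx₁)
    obtain ⟨Y', hY', hYY', hY'Y⟩ := inv_ew H hY hY0
    let Yu : (MQ L a b)ˣ := ⟨Y, Y', hYY', hY'Y⟩
    have hYuD : InD ρ lam (Yu : MQ L a b) := ew_le w hY
    have hval : ((Yu⁻¹ * x * Yu : (MQ L a b)ˣ) : MQ L a b) =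
        (Y' * x₀ * Y) * (1 + ζ * sc L v) := by
      change Y' * (x : MQ L a b) * Y = _
      have e1 : Y * (1 + ζ * sc L v) = (1 + x' * x₁ * sc L v) * Y := by
        rw [mul_add, mul_one, ← mul_assoc, ← hYζ, add_mul, one_mul, mul_assoc _ (sc L v) Y,
          sc_bar hv hnv, ← mul_assoc]
      rw [mul_assoc (Y' * x₀), e1, he, ← mul_assoc (Y' * x₀), mul_assoc Y' x₀, mul_add x₀,
        mul_one, ← mul_assoc x₀, ← mul_assoc x₀, h1, one_mul]
    have hconj : InRes ρ lam c (Yu⁻¹ * x * Yu) := by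
      refine H637.inRes_c0 H hw hw0 ?_ ((ew ρ lam w).mul_mem ((ew ρ lam w).mul_mem hY' hx₀) hY)
        hz hzk ((dq ρ lam a b).add_mem (dq ρ lam a b).one_mem
          ((dq ρ lam a b).mul_mem (ew_le w hζ) (sc_mem v))) ?_ hval
      · have := H637.nu_conj H Yu⁻¹ x
        rw [inv_inv] at this
        rw [this, hn]
      · rw [add_mul, mul_add, one_mul, mul_one, mul_assoc, sc_comm, ← mul_assoc, hζz, mul_assoc]
    have e2 : x = Yu * (Yu⁻¹ * x * Yu) * Yu⁻¹ := by group
    rw [e2]
    have hxn : nu ((Yu⁻¹ * x * Yu : (MQ L a b)ˣ) : MQ L a b) = 1 := by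
      have := H637.nu_conj H Yu⁻¹ x
      rw [inv_inv] at this
      rw [this, hn]
    refine InRes.conj H hYuD hconj ?_ hxn
    rw [hval]
    exact (dq ρ lam a b).mul_mem
      (ew_le w ((ew ρ lam w).mul_mem ((ew ρ lam w).mul_mem hY' hx₀) hY))
      ((dq ρ lam a b).add_mem (dq ρ lam a b).one_mem
        ((dq ρ lam a b).mul_mem (ew_le w hζ) (sc_mem v)))

end Vale.Agent.P011.E6I
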