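import Vale.Agent.P011.E6I.H637.RowB
import Vale.Agent.P011.E6I.H369.Dk

/-!
Block E6I: products of an element of `D ⊗ k(w)` with an element of `D ⊗ Q` which commutes with
an element of `D`.
-/

namespace Vale.Agent.P011.E6I.H637

open NumberField Matrix
open Vale.Agent.P011.MPQ Vale.Agent.P011.D4 Vale.Agent.P011.D4.Oct Vale.Agent.P011.E6
open Vale.Agent.P011.E6I

variable {k L : Type} [Field k] [NumberField k] [Field L] [NumberField L] [Algebra k L]
  {ρ : L ≃ₐ[k] L} {lam : kˣ} {a b c : kˣ}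

/-- The reduced norms of the scalars of `k(w)`. -/
theorem nu_scal (H : Hyp ρ lam a b c) {w : Qt a b} (hw : w.re = 0) (x : LP L w) :
    nu ((kap hw).mapMatrix (x • (1 : Matrix (Fin 3) (Fin 3) (LP L w)))) = nrd (kap hw x) ^ 3 := by
  rw [nu_mapMatrix two_ne_zero H.aniso, Matrix.det_smul, Matrix.det_one, mul_one,
    Fintype.card_fin, map_pow, pow_three, nrd_mul, nrd_mul]
  ring

/-- (c0) -/
theorem inRes_c0 (H : Hyp ρ lam a b c) {w : Qt a b} (hw : w.re = 0) (hw0 : w ≠ 0)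
    {X : (MQ L a b)ˣ} (hXn : nu (X : MQ L a b) = 1) {x₀ : MQ L a b} (hx₀ : x₀ ∈ ew ρ lam w)
    {z : Matrix (Fin 3) (Fin 3) L} (hz : InD0 ρ lam z)
    (hzk : ∀ t : L, z ≠ t • (1 : Matrix (Fin 3) (Fin 3) L))
    {q : MQ L a b} (hq : q ∈ dq ρ lam a b) (hqz : q * toMQ z = toMQ z * q)
    (hX : (X : MQ L a b) = x₀ * q) : InRes ρ lam c X := by
  have hn : nrd w ≠ 0 := fun h => hw0 (H.anisoK w h)
  have hx00 : x₀ ≠ 0 := by
    rintro rfl
    rw [zero_mul] at hX
    exact X.ne_zero hX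
  obtain ⟨x₁, hx₁, h01, h10⟩ := inv_ew H hx₀ hx00
  obtain ⟨M, N, hM, hN, hMU, hNU, hMN, hNM⟩ := exists_lift hw hn hx₀ hx₁ h01 h10
  obtain ⟨z', s, -, htr, hd, hzz⟩ := exists_shift H hz hzk
  have hqz' : q * tm (up L a) (up L b) z' = tm (up L a) (up L b) z' * q := by
    change q * toMQ z' = toMQ z' * q
    rw [hzz, toMQ_add, mul_add, add_mul, toMQ_smul, toMQ_one, mul_smul_comm, smul_mul_assoc,
      mul_one, one_mul] at hqz
    exact add_right_cancel hqz
  have hqn : q * q.map star = toMQ (nq q) := mul_star_nq htr hd hqz'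
  have hnu : nu q = (nq q).det := nu_eq_det H.aniso htr hd hqz'
  have hnD : InD0 ρ lam (nq q) := nq_inD0 htr hd hq hqz'
  have hcomm : nq q * z = z * nq q := by
    rw [hzz, mul_add, add_mul, nq_comm hqz', mul_smul_comm, smul_mul_assoc, mul_one, one_mul]
  have hnorm : nu x₀ * nu q = 1 := by rw [← nu_mul H.aniso, ← hX, hXn]
  have h01n : nu x₀ * nu x₁ = 1 := by rw [← nu_mul H.aniso, h01, nu_one]
  have hx₀n : nu x₀ ≠ 0 := left_ne_zero_of_mul_eq_one h01n
  have hq1 : nu q = nu x₁ := mul_left_cancel₀ hx₀n (hnorm.trans h01n.symm)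
  have hx₁n : nu x₁ = nrd (kap hw N.det) := by rw [← hN, nu_mapMatrix two_ne_zero H.aniso]
  have hnq0 : (toMQ (nq q) : MQ L a b) ≠ 0 := by
    intro h0
    have h1 := toMQ_eq_zero h0
    rw [hnu, h1] at hnorm
    simp at hnorm
  obtain ⟨_, ⟨n', hn', rfl⟩, hnn1, hnn2⟩ := inv_d0 H (toMQ_mem hnD) hnq0
  -- the element `y`
  set p : MQ L a b := (kap hw).mapMatrix (N.det • (1 : Matrix (Fin 3) (Fin 3) (LP L w))) with hp
  have hpm : p ∈ ew ρ lam w := mem_ew_kapM hw (eqU_smul eqU_one hNU.det)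
  have hpn : nu p = nu x₁ ^ 3 := by rw [hp, nu_scal H hw, hx₁n]
  have hpc : ∀ x ∈ ew ρ lam w, p * x = x * p := by
    intro x hx
    obtain ⟨X', rfl, -⟩ := lift_ew hw hn hx
    rw [hp, ← map_mul, ← map_mul, smul_mul_assoc, mul_smul_comm, one_mul, mul_one]
  set y : MQ L a b := p * toMQ n' with hy
  have hym : y ∈ ew ρ lam w := (ew ρ lam w).mul_mem hpm (d0_le_ew w (toMQ_mem hn'))
  have hyn : nu y = nu x₁ := by
    have h1 : nu (toMQ n' : MQ L a b) = n'.det ^ 2 := nu_tm (a := up L a) (b := up L b) n'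
    have h2 : n'.det * nu x₁ = 1 := by
      rw [← hq1, hnu, ← Matrix.det_mul]
      have : n' * nq q = 1 := by
        apply toMQ_injective (k := k) (a := a) (b := b)
        rw [toMQ_mul, hnn2, toMQ_one]
      rw [this, Matrix.det_one]
    rw [hy, nu_mul H.aniso, hpn, h1]
    calc nu x₁ ^ 3 * n'.det ^ 2 = nu x₁ * (n'.det * nu x₁) ^ 2 := by ring
      _ = nu x₁ := by rw [h2, one_pow, mul_one]
  have hy0 : y ≠ 0 := by
    intro h0
    have h1 : nu y ≠ 0 := by
      rw [hyn]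
      exact right_ne_zero_of_mul_eq_one h01n
    apply h1
    have h2 : nu y * nu x₀ = nu (y * x₀) := (nu_mul H.aniso _ _).symm
    rw [h0, zero_mul] at h2
    rw [h0]
    have h3 : nu (0 : MQ L a b) * (nu x₀ - 1) = 0 := by rw [mul_sub, h2]; ring
    have h4 : nu (0 : MQ L a b) = nu ((kap hw).mapMatrix (0 : Matrix (Fin 3) (Fin 3) (LP L w))) := by
      rw [map_zero]
    rw [h4, nu_mapMatrix two_ne_zero H.aniso, Matrix.det_zero, map_zero]
    simp [nrd]
  obtain ⟨y', hy'm, hyy', hy'y⟩ := inv_ew H hym hy0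
  -- the two factors
  let A : (MQ L a b)ˣ := ⟨x₀ * y, y' * x₁,
    by rw [mul_assoc x₀, ← mul_assoc y, hyy', one_mul, h01],
    by rw [mul_assoc y', ← mul_assoc x₁, h10, one_mul, hy'y]⟩
  have hAm : (A : MQ L a b) ∈ ew ρ lam w := (ew ρ lam w).mul_mem hx₀ hym
  have hAn : nu (A : MQ L a b) = 1 := by
    change nu (x₀ * y) = 1
    rw [nu_mul H.aniso, hyn, h01n]
  set B : (MQ L a b)ˣ := A⁻¹ * X with hB
  have hBv : (B : MQ L a b) = y' * q := by
    rw [hB, Units.val_mul, Units.inv_mul_eq_iff_eq_mul, hX]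
    change x₀ * q = x₀ * y * (y' * q)
    rw [mul_assoc x₀ y, ← mul_assoc y y', hyy', one_mul]
  have hBD : InD ρ lam (B : MQ L a b) := by
    rw [hBv]
    exact (dq ρ lam a b).mul_mem (ew_le w hy'm) hq
  have hBn : nu (B : MQ L a b) = 1 := by
    have h1 : nu (A : MQ L a b) * nu (B : MQ L a b) = nu (X : MQ L a b) := by
      rw [← nu_mul H.aniso, ← Units.val_mul, hB, mul_inv_cancel_left]
    rwa [hAn, one_mul, hXn] at h1
  have hyz : y * toMQ z = toMQ z * y := by
    have hn'z : n' * z = z * n' := by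
      apply toMQ_injective (k := k) (a := a) (b := b)
      have h1 : (toMQ (nq q) : MQ L a b) * toMQ z = toMQ z * toMQ (nq q) := by
        rw [← toMQ_mul, hcomm, toMQ_mul]
      rw [toMQ_mul, toMQ_mul]
      calc (toMQ n' : MQ L a b) * toMQ z
          = toMQ n' * toMQ z * (toMQ (nq q) * toMQ n') := by rw [hnn1, mul_one]
        _ = toMQ n' * (toMQ z * toMQ (nq q)) * toMQ n' := by simp only [mul_assoc]
        _ = (toMQ n' * toMQ (nq q)) * toMQ z * toMQ n' := by rw [← h1]; simp only [mul_assoc]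
        _ = toMQ z * toMQ n' := by rw [hnn2, one_mul]
    rw [hy, mul_assoc, ← toMQ_mul, hn'z, toMQ_mul, ← mul_assoc,
      hpc _ (d0_le_ew w (toMQ_mem hz)), mul_assoc]
  have hy'z : y' * toMQ z = toMQ z * y' := by
    calc y' * toMQ z = y' * toMQ z * (y * y') := by rw [hyy', mul_one]
      _ = y' * (toMQ z * y) * y' := by simp only [mul_assoc]
      _ = (y' * y) * toMQ z * y' := by rw [← hyz]; simp only [mul_assoc]
      _ = toMQ z * y' := by rw [hy'y, one_mul]
  have hBz : (B : MQ L a b) * toMQ z = toMQ z * (B : MQ L a b) := by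
    rw [hBv, mul_assoc, hqz, ← mul_assoc, hy'z, mul_assoc]
  have e1 : X = A * B := by rw [hB, mul_inv_cancel_left]
  rw [e1]
  exact InRes.mul H (ew_le w hAm) hAn hBD hBn
    (inRes_DP H w hw hw0 hAm.1 hAm.2 hAn)
    (inRes_QF H hz hzk hBD hBz hBn)

end Vale.Agent.P011.E6I.H637
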