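import Vale.Agent.P011.E6I.H637.LP
import Vale.Agent.P011.E6I.H369.Qn

/-!
Block E6I: commutants of elements of `D`.
-/

namespace Vale.Agent.P011.E6I.H637

open NumberField Matrix
open Vale.Agent.P011.MPQ Vale.Agent.P011.D4 Vale.Agent.P011.D4.Oct Vale.Agent.P011.E6
open Vale.Agent.P011.E6I

variable {k L : Type} [Field k] [NumberField k] [Field L] [NumberField L] [Algebra k L]
  {ρ : L ≃ₐ[k] L} {lam : kˣ} {a b c : kˣ}

omit [NumberField k] [NumberField L] in
theorem trace_inD0 {z : Matrix (Fin 3) (Fin 3) L} (hz : InD0 ρ lam z) : ρ z.trace = z.trace := by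
  have h : z = u0 L lam * z.map ρ * w0 L lam := by
    have h1 : z * u0 L lam = u0 L lam * z.map ρ := hz
    rw [← h1, mul_assoc, u0_mul_w0, mul_one]
  have e : z.trace = (z.map ρ).trace := by
    conv_lhs => rw [h]
    rw [Matrix.trace_mul_comm, ← mul_assoc, w0_mul_u0, one_mul]
  have e2 : ρ z.trace = (z.map ρ).trace := by
    simp [Matrix.trace, map_sum]
  exact e2.trans e.symm

omit [NumberField k] [NumberField L] in
theorem inD0_mul {x y : Matrix (Fin 3) (Fin 3) L} (hx : InD0 ρ lam x) (hy : InD0 ρ lam y) :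
    InD0 ρ lam (x * y) := by
  have h1 : x * u0 L lam = u0 L lam * x.map ρ := hx
  have h2 : y * u0 L lam = u0 L lam * y.map ρ := hy
  have h3 : (x * y).map ρ = x.map ρ * y.map ρ := Matrix.map_mul (f := (ρ : L →+* L))
  change x * y * u0 L lam = u0 L lam * (x * y).map ρ
  rw [h3, mul_assoc, h2, ← mul_assoc, h1, mul_assoc]

omit [NumberField k] [NumberField L] in
theorem inD0_sub {x y : Matrix (Fin 3) (Fin 3) L} (hx : InD0 ρ lam x) (hy : InD0 ρ lam y) :
    InD0 ρ lam (x - y) := by
  have h1 : x * u0 L lam = u0 L lam * x.map ρ := hx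
  have h2 : y * u0 L lam = u0 L lam * y.map ρ := hy
  have h3 : (x - y).map ρ = x.map ρ - y.map ρ := by
    ext i j
    simp
  change (x - y) * u0 L lam = u0 L lam * (x - y).map ρ
  rw [h3, sub_mul, mul_sub, h1, h2]

omit [NumberField k] [NumberField L] in
theorem inD0_k (t : k) : InD0 ρ lam (algebraMap k L t • (1 : Matrix (Fin 3) (Fin 3) L)) := by
  have h3 : (algebraMap k L t • (1 : Matrix (Fin 3) (Fin 3) L)).map ρ =
      algebraMap k L t • (1 : Matrix (Fin 3) (Fin 3) L) := by
    ext i j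
    simp only [Matrix.map_apply, Matrix.smul_apply, smul_eq_mul, map_mul, Matrix.one_apply,
      AlgEquiv.commutes]
    split_ifs <;> simp
  change _ * u0 L lam = u0 L lam * _
  rw [h3, smul_mul_assoc, mul_smul_comm, one_mul, mul_one]

theorem domain_d0 (H : Hyp ρ lam a b c) {x y : Matrix (Fin 3) (Fin 3) L} (hx : InD0 ρ lam x)
    (h : x * y = 0) : x = 0 ∨ y = 0 := by
  have h1 : (toMQ x : MQ L a b) * toMQ y = 0 := by rw [← toMQ_mul, h, toMQ_zero]
  rcases dq_domain H (d0_le (toMQ_mem hx)) h1 with h2 | h2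
  · exact Or.inl (toMQ_eq_zero h2)
  · exact Or.inr (toMQ_eq_zero h2)

/-- The shift to trace zero. -/
theorem exists_shift (H : Hyp ρ lam a b c) {z : Matrix (Fin 3) (Fin 3) L} (hz : InD0 ρ lam z)
    (hzk : ∀ t : L, z ≠ t • (1 : Matrix (Fin 3) (Fin 3) L)) :
    ∃ (z' : Matrix (Fin 3) (Fin 3) L) (s : L), InD0 ρ lam z' ∧ z'.trace = 0 ∧ dz z' ≠ 0 ∧
      z = z' + s • (1 : Matrix (Fin 3) (Fin 3) L) := by
  obtain ⟨τ, hτ⟩ := H.fix (trace_inD0 hz)
  set s : L := algebraMap k L (τ / 3) with hs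
  set z' := z - s • (1 : Matrix (Fin 3) (Fin 3) L) with hz'
  have hs3 : s = z.trace / 3 := by rw [hs, map_div₀, hτ, map_ofNat]
  have hinD : InD0 ρ lam z' := inD0_sub hz (inD0_k _)
  have htr : z'.trace = 0 := by
    rw [hz', Matrix.trace_sub, Matrix.trace_smul, Matrix.trace_one, hs3]
    simp
  refine ⟨z', s, hinD, htr, ?_, by rw [hz']; abel⟩
  intro hd
  have hnz : ∀ t : L, z' ≠ t • (1 : Matrix (Fin 3) (Fin 3) L) := by
    intro t ht
    refine hzk (t + s) ?_
    rw [add_smul, ← ht, hz']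
    abel
  have hcube := z_cube htr
  obtain ⟨p, hp⟩ : ∃ p : k, algebraMap k L p = pz z' := by
    refine H.fix ?_
    rw [pz, map_div₀, map_neg, trace_inD0 (inD0_mul hinD hinD), map_ofNat]
  obtain ⟨q, hq⟩ : ∃ q : k, algebraMap k L q = qz z' := by
    refine H.fix ?_
    have h3 := trace_zzz htr
    have h4 : qz z' = -(z' * z' * z').trace / 3 := by rw [h3]; ring
    rw [h4, map_div₀, map_neg, trace_inD0 (inD0_mul (inD0_mul hinD hinD) hinD), map_ofNat]
  have hd' : -4 * p ^ 3 - 27 * q ^ 2 = 0 := by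
    apply (algebraMap k L).injective
    have : -4 * pz z' ^ 3 - 27 * qz z' ^ 2 = 0 := hd
    rw [← hp, ← hq] at this
    rw [map_sub, map_mul, map_mul, map_neg, map_pow, map_pow, map_ofNat, map_ofNat, map_zero]
    linear_combination this
  rw [← hp, ← hq] at hcube
  -- roots of the polynomial
  have hroot : ∃ r r' : k, (z' - algebraMap k L r • (1 : Matrix (Fin 3) (Fin 3) L)) *
      ((z' - algebraMap k L r' • 1) * (z' - algebraMap k L r' • 1)) = 0 := by
    have gen : ∀ r r' : k, r + 2 * r' = 0 → r' ^ 2 + 2 * r * r' = p → r * r' ^ 2 = -q →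
        (z' - algebraMap k L r • (1 : Matrix (Fin 3) (Fin 3) L)) *
          ((z' - algebraMap k L r' • 1) * (z' - algebraMap k L r' • 1)) = 0 := by
      intro r r' c1 c2 c3
      have e : (z' - algebraMap k L r • (1 : Matrix (Fin 3) (Fin 3) L)) *
          ((z' - algebraMap k L r' • 1) * (z' - algebraMap k L r' • 1)) =
          z' * z' * z' - algebraMap k L (r + 2 * r') • (z' * z') +
            algebraMap k L (r' ^ 2 + 2 * r * r') • z' -
            algebraMap k L (r * r' ^ 2) • 1 := by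
        simp only [sub_mul, mul_sub, smul_mul_assoc, mul_smul_comm, one_mul, mul_one, mul_assoc,
          map_add, map_mul, map_pow, map_ofNat]
        module
      rw [e, hcube, c1, c2, c3, map_zero, map_neg]
      module
    by_cases hp0 : p = 0
    · have hq0 : q = 0 := by
        have : 27 * q ^ 2 = 0 := by linear_combination -hd' - 4 * p ^ 2 * hp0
        simpa using this
      exact ⟨0, 0, gen 0 0 (by ring) (by rw [hp0]; ring) (by rw [hq0]; ring)⟩
    · obtain ⟨x, hx⟩ : ∃ x : k, q = p * x := ⟨q / p, by field_simp⟩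
      have h4 : 4 * p + 27 * x ^ 2 = 0 := by
        have : p ^ 2 * (4 * p + 27 * x ^ 2) = 0 := by
          rw [hx] at hd'
          linear_combination -hd'
        exact (mul_eq_zero.1 this).resolve_left (pow_ne_zero 2 hp0)
      refine ⟨3 * x, -3 * x / 2, gen _ _ (by ring) ?_ ?_⟩
      · linear_combination (-1 / 4 : k) * h4
      · rw [hx]
        linear_combination (1 / 4 : k) * x * h4
  obtain ⟨r, r', hrr⟩ := hroot
  have hin : ∀ t : k, InD0 ρ lam (z' - algebraMap k L t • (1 : Matrix (Fin 3) (Fin 3) L)) :=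
    fun t => inD0_sub hinD (inD0_k t)
  have hne : ∀ t : k, z' - algebraMap k L t • (1 : Matrix (Fin 3) (Fin 3) L) ≠ 0 :=
    fun t h => hnz _ (sub_eq_zero.1 h)
  rcases domain_d0 H (hin r) hrr with h | h
  · exact hne r h
  · rcases domain_d0 H (hin r') h with h | h
    · exact hne r' h
    · exact hne r' h

/-- Two elements of `D` which commute with the same element of `D` commute. -/
theorem comm_d0 (H : Hyp ρ lam a b c) {z : Matrix (Fin 3) (Fin 3) L} (hz : InD0 ρ lam z)
    (hzk : ∀ t : L, z ≠ t • (1 : Matrix (Fin 3) (Fin 3) L)) {x y : MQ L a b}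
    (hx : x ∈ d0 ρ lam a b) (hy : y ∈ d0 ρ lam a b) (hxz : x * toMQ z = toMQ z * x)
    (hyz : y * toMQ z = toMQ z * y) : x * y = y * x := by
  obtain ⟨x, hx, rfl⟩ := hx
  obtain ⟨y, hy, rfl⟩ := hy
  obtain ⟨z', s, -, htr, hd, rfl⟩ := exists_shift H hz hzk
  have key : ∀ u : Matrix (Fin 3) (Fin 3) L,
      (toMQ u : MQ L a b) * toMQ (z' + s • 1) = toMQ (z' + s • 1) * toMQ u → u * z' = z' * u := by
    intro u hu
    rw [← toMQ_mul, ← toMQ_mul] at hu
    have := toMQ_injective hu
    rw [mul_add, add_mul, mul_smul_comm, smul_mul_assoc, one_mul, mul_one] at this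
    exact add_right_cancel this
  rw [← toMQ_mul, ← toMQ_mul, comm_comm htr hd (key x hxz) (key y hyz)]

/-- An element of `D ⊗ Q` which commutes with an element of `D` and with `q q' = 1`, where `q'`
is the entrywise conjugate, fixes the symmetric matrices of the commutant. -/
theorem fix_of_star (H : Hyp ρ lam a b c) {z : Matrix (Fin 3) (Fin 3) L} (hz : InD0 ρ lam z)
    (hzk : ∀ t : L, z ≠ t • (1 : Matrix (Fin 3) (Fin 3) L)) {q : MQ L a b}
    (hqz : q * toMQ z = toMQ z * q) (hq1 : q * q.map star = 1)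
    {S : Matrix (Fin 3) (Fin 3) L} (hS : z * S = S * zᵀ) :
    q * toMQ S * qᴴ = toMQ S := by
  obtain ⟨z', s, -, htr, hd, rfl⟩ := exists_shift H hz hzk
  have h1 : q * tm (up L a) (up L b) z' = tm (up L a) (up L b) z' * q := by
    change q * toMQ z' = toMQ z' * q
    rw [toMQ_add, mul_add, add_mul, toMQ_smul, toMQ_one, mul_smul_comm, smul_mul_assoc,
      mul_one, one_mul] at hqz
    exact add_right_cancel hqz
  have h2 : z' * S = S * z'ᵀ := by
    rw [add_mul, Matrix.transpose_add, mul_add, smul_mul_assoc, one_mul, Matrix.transpose_smul,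
      Matrix.transpose_one, mul_smul_comm, mul_one] at hS
    exact add_right_cancel hS
  have h3 := mul_S_ct htr hd h1 h2
  have h4 := mul_star_nq htr hd h1
  rw [hq1] at h4
  have h5 : nq q = 1 := tm_inj (a := up L a) (b := up L b) (h4.symm.trans tm_one.symm)
  rw [h5, one_mul] at h3
  exact h3

end Vale.Agent.P011.E6I.H637
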